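import Vale.Agent.P344.H890.Lines

/-!
# Additions needed for the discrete Fourier transform
-/

set_option linter.unusedSectionVars false

namespace Vale.Agent.P344.H890

open Finset ArithmeticFunction ArithmeticFunction.Omega

variable {n : ℕ} [NeZero n]

/-- Row `t` of the Fourier matrix, the rows being indexed by `ZMod n`. -/
noncomputable def F (t : ZMod n) (j : Fin n) : ℂ := ZMod.stdAddChar (t * ((j : ℕ) : ZMod n))

theorem F_ne_zero (t : ZMod n) (j : Fin n) : F t j ≠ 0 := by
  rw [F, ZMod.stdAddChar_apply]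
  exact Circle.coe_ne_zero _

theorem cast_inj {a b : Fin n} (h : ((a : ℕ) : ZMod n) = ((b : ℕ) : ZMod n)) : a = b := by
  rw [ZMod.natCast_eq_natCast_iff', Nat.mod_eq_of_lt a.2, Nat.mod_eq_of_lt b.2] at h
  exact Fin.ext h

/-- The differences of rows that are proportional on `K`. -/
def ann (K : Finset (Fin n)) : AddSubgroup (ZMod n) where
  carrier := {t | ∀ a ∈ K, ∀ b ∈ K, t * (((a : ℕ) : ZMod n) - ((b : ℕ) : ZMod n)) = 0}
  zero_mem' := fun a _ b _ => by simp
  add_mem' := by
    intro x y hx hy a ha b hb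
    rw [add_mul, hx a ha b hb, hy a ha b hb, add_zero]
  neg_mem' := by
    intro x hx a ha b hb
    rw [neg_mul, hx a ha b hb, neg_zero]

theorem mem_ann {K : Finset (Fin n)} {t : ZMod n} :
    t ∈ ann K ↔ ∀ a ∈ K, ∀ b ∈ K, t * (((a : ℕ) : ZMod n) - ((b : ℕ) : ZMod n)) = 0 := Iff.rfl

theorem ann_mono {K K' : Finset (Fin n)} (h : K' ⊆ K) : ann K ≤ ann K' := fun _ ht a ha b hb =>
  ht a (h ha) b (h hb)

theorem F_sub (t t' : ZMod n) (j : Fin n) :
    F t j = ZMod.stdAddChar ((t - t') * ((j : ℕ) : ZMod n)) * F t' j := by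
  rw [F, F, ← AddChar.map_add_eq_mul]
  congr 1
  ring

theorem ann_of_prop {K : Finset (Fin n)} {t t' : ZMod n}
    (h : ∃ c : ℂ, res K (F t) = c • res K (F t')) : t - t' ∈ ann K := by
  obtain ⟨c, hc⟩ := h
  have key : ∀ a ∈ K, ZMod.stdAddChar ((t - t') * ((a : ℕ) : ZMod n)) = c := by
    intro a ha
    have := congrFun hc a
    rw [Pi.smul_apply, res_apply ha, res_apply ha, smul_eq_mul, F_sub t t'] at this
    exact mul_right_cancel₀ (F_ne_zero t' a) this
  rw [mem_ann]
  intro a ha b hb
  have : ZMod.stdAddChar ((t - t') * ((a : ℕ) : ZMod n)) =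
      (ZMod.stdAddChar ((t - t') * ((b : ℕ) : ZMod n)) : ℂ) := by rw [key a ha, key b hb]
  have := ZMod.injective_stdAddChar this
  rw [mul_sub, this, sub_self]

theorem prop_of_ann {K : Finset (Fin n)} {t t' : ZMod n} (h : t - t' ∈ ann K) :
    ∃ c : ℂ, res K (F t) = c • res K (F t') := by
  rcases K.eq_empty_or_nonempty with rfl | ⟨b, hb⟩
  · exact ⟨0, by funext j; simp [res]⟩
  · refine ⟨ZMod.stdAddChar ((t - t') * ((b : ℕ) : ZMod n)), ?_⟩
    funext a
    by_cases ha : a ∈ K
    · rw [Pi.smul_apply, res_apply ha, res_apply ha, smul_eq_mul, F_sub t t']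
      congr 2
      have := h a ha b hb
      rwa [mul_sub, sub_eq_zero] at this
    · simp [res, ha]

theorem index_univ (hn : 2 ≤ n) : (ann (univ : Finset (Fin n))).index = n := by
  have : ann (univ : Finset (Fin n)) = ⊥ := by
    rw [eq_bot_iff]
    intro t ht
    have := ht ⟨1, by omega⟩ (mem_univ _) ⟨0, by omega⟩ (mem_univ _)
    simpa using this
  rw [this, AddSubgroup.index_bot, Nat.card_eq_fintype_card, ZMod.card]

theorem two_le_index {K : Finset (Fin n)} (hK : 2 ≤ K.card) : 2 ≤ (ann K).index := by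
  have h0 : (ann K).index ≠ 0 := AddSubgroup.index_ne_zero_of_finite
  have h1 : (ann K).index ≠ 1 := by
    rw [Ne, AddSubgroup.index_eq_one]
    intro h
    obtain ⟨a, ha⟩ : K.Nonempty := Finset.card_pos.1 (by omega)
    obtain ⟨b, hb, hba⟩ := exists_ne_of_two_le hK a
    have h2 : (1 : ZMod n) ∈ ann K := h ▸ AddSubgroup.mem_top _
    have := h2 a ha b hb
    rw [one_mul, sub_eq_zero] at this
    exact hba (cast_inj this).symm
  omega

theorem omega_lt {d N : ℕ} (hd : d ∣ N) (hne : d ≠ N) (hN : N ≠ 0) : Ω d + 1 ≤ Ω N := by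
  obtain ⟨e, rfl⟩ := hd
  have hd0 : d ≠ 0 := left_ne_zero_of_mul hN
  have he0 : e ≠ 0 := right_ne_zero_of_mul hN
  have he1 : 1 < e := by
    rcases Nat.lt_or_ge 1 e with h | h
    · exact h
    · have : e = 1 := by omega
      subst this
      simp at hne
  rw [cardFactors_mul hd0 he0]
  have := cardFactors_pos_iff_one_lt.2 he1
  omega

theorem sep (a b : Fin n) (hab : a ≠ b) :
    ∃ o ∈ Set.range (F (n := n)), ∃ o' ∈ Set.range (F (n := n)), o a * o' b ≠ o b * o' a := by
  refine ⟨F 0, ⟨0, rfl⟩, F 1, ⟨1, rfl⟩, ?_⟩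
  have h0 : ∀ j : Fin n, F 0 j = 1 := by
    intro j; simp [F]
  rw [h0, h0, one_mul, one_mul]
  intro h
  rw [F, F, one_mul, one_mul] at h
  exact hab (cast_inj (ZMod.injective_stdAddChar h).symm)

theorem card_R {w : ℕ → Fin n → ℂ} {s : ℕ} (hw : IsSeq w s) (hF : ∀ t : ZMod n, F t ∈ Av w s) :
    ∀ m : ℕ, ∀ K : Finset (Fin n), K.card = m → 2 ≤ m →
      2 * m + (ann K).index ≤ (R w s K).card + 2 + 2 * Ω (ann K).index := by
  classical
  intro m
  induction m with
  | zero => intro K _ h; omega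
  | succ m ih =>
    intro K hK hm
    have hK2 : 2 ≤ K.card := by omega
    by_cases hm2 : m = 1
    · subst hm2
      have h1 := (lines F hF (Finset.Subset.refl K) hK2 (ann K) (ann K)
        (fun _ _ h => ann_of_prop h) (fun _ _ h => prop_of_ann h)
        (fun t j _ => F_ne_zero t j)).2
      have h2 := cardFactors_pos_iff_one_lt.2 (two_le_index hK2)
      omega
    · obtain ⟨a, ha, h2⟩ := two_kills hw hK2 (Set.range F) (by rintro _ ⟨t, rfl⟩; exact hF t)
        ⟨F 0, 0, rfl⟩ (by rintro _ ⟨t, rfl⟩ j _; exact F_ne_zero t j)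
        (fun a _ b _ hab => sep a b hab)
      have h1 := (lines F hF (Finset.erase_subset a K) hK2 (ann K) (ann (K.erase a))
        (fun _ _ h => ann_of_prop h) (fun _ _ h => prop_of_ann h)
        (fun t j _ => F_ne_zero t j)).1
      have hcard : (K.erase a).card = m := by rw [Finset.card_erase_of_mem ha, hK]; rfl
      have h3 := ih (K.erase a) hcard (by omega)
      have h4 : (R w s K).card = (R w s K \ R w s (K.erase a)).card + (R w s (K.erase a)).card :=
        (Finset.card_sdiff_add_card_eq_card (R_mono (Finset.erase_subset a K))).symm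
      have hdvd : (ann (K.erase a)).index ∣ (ann K).index :=
        AddSubgroup.index_dvd_of_le (ann_mono (Finset.erase_subset a K))
      by_cases heq : (ann (K.erase a)).index = (ann K).index
      · rw [heq] at h3
        omega
      · have h5 := omega_lt hdvd heq AddSubgroup.index_ne_zero_of_finite
        omega

/-- A sequence computing `F_n` has at least `3n - 2 - 2Ω(n)` gates that are not redundant. -/
theorem card_R_univ (hn : 2 ≤ n) {w : ℕ → Fin n → ℂ} {s : ℕ} (hw : IsSeq w s)
    (hF : ∀ t : ZMod n, F t ∈ Av w s) : 3 * n ≤ (R w s univ).card + 2 + 2 * Ω n := by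
  have := card_R hw hF n univ (by simp) hn
  rw [index_univ hn] at this
  omega

end Vale.Agent.P344.H890
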