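import Mathlib

/-!
# Additions in linear circuits: elimination of inputs

A circuit is a sequence of linear forms `w 0, w 1, …`, each a combination of two forms available
before.  For a set `K` of inputs, `R w s K` is the set of those of the first `s` gates whose form,
restricted to `K`, is not proportional to an earlier one.
-/

namespace Vale.Agent.P344.H890

open Finset

variable {ι : Type*} [DecidableEq ι]

/-- The restriction of a form to the inputs in `K`. -/
def res (K : Finset ι) (v : ι → ℂ) : ι → ℂ := fun j => if j ∈ K then v j else 0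

@[simp] theorem res_zero (K : Finset ι) : res K (0 : ι → ℂ) = 0 := by
  funext j; simp [res]

theorem res_add (K : Finset ι) (u v : ι → ℂ) : res K (u + v) = res K u + res K v := by
  funext j; by_cases h : j ∈ K <;> simp [res, h]

theorem res_smul (K : Finset ι) (c : ℂ) (v : ι → ℂ) : res K (c • v) = c • res K v := by
  funext j; by_cases h : j ∈ K <;> simp [res, h]

theorem res_res {K K' : Finset ι} (h : K' ⊆ K) (v : ι → ℂ) : res K' (res K v) = res K' v := by
  funext j
  by_cases h' : j ∈ K'
  · simp [res, h', h h']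
  · simp [res, h']

theorem res_apply {K : Finset ι} {j : ι} (h : j ∈ K) (v : ι → ℂ) : res K v j = v j := by
  simp [res, h]

theorem res_single {K : Finset ι} {j : ι} (h : j ∈ K) :
    res K (Pi.single j (1 : ℂ)) = Pi.single j 1 := by
  funext k
  by_cases hk : k ∈ K
  · simp [res, hk]
  · have : k ≠ j := fun e => hk (e ▸ h)
    simp [res, hk, this]

theorem res_single_not {K : Finset ι} {j : ι} (h : j ∉ K) :
    res K (Pi.single j (1 : ℂ)) = 0 := by
  funext k
  by_cases hk : k ∈ K
  · have : k ≠ j := fun e => h (e ▸ hk)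
    simp [res, this]
  · simp [res, hk]

/-- The forms available before gate `i`: `0`, the inputs and the earlier gates. -/
def Av (w : ℕ → ι → ℂ) (i : ℕ) : Set (ι → ℂ) :=
  {v | v = 0 ∨ (∃ j, v = Pi.single j 1) ∨ ∃ i' < i, v = w i'}

theorem Av_zero (w : ℕ → ι → ℂ) (i : ℕ) : (0 : ι → ℂ) ∈ Av w i := Or.inl rfl

theorem Av_single (w : ℕ → ι → ℂ) (i : ℕ) (j : ι) : (Pi.single j 1 : ι → ℂ) ∈ Av w i :=
  Or.inr (Or.inl ⟨j, rfl⟩)

theorem Av_gate (w : ℕ → ι → ℂ) {i i' : ℕ} (h : i' < i) : w i' ∈ Av w i :=
  Or.inr (Or.inr ⟨i', h, rfl⟩)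

/-- Each of the first `s` gates is a combination of two forms available before. -/
def IsSeq (w : ℕ → ι → ℂ) (s : ℕ) : Prop :=
  ∀ i < s, ∃ u ∈ Av w i, ∃ v ∈ Av w i, ∃ c d : ℂ, w i = c • u + d • v

/-- On `K`, gate `i` is proportional to a form available before. -/
def Red (w : ℕ → ι → ℂ) (K : Finset ι) (i : ℕ) : Prop :=
  ∃ u ∈ Av w i, ∃ c : ℂ, res K (w i) = c • res K u

open Classical in
/-- The gates among the first `s` that are not redundant on `K`. -/
noncomputable def R (w : ℕ → ι → ℂ) (s : ℕ) (K : Finset ι) : Finset ℕ :=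
  (range s).filter fun i => ¬ Red w K i

theorem mem_R {w : ℕ → ι → ℂ} {s : ℕ} {K : Finset ι} {i : ℕ} :
    i ∈ R w s K ↔ i < s ∧ ¬ Red w K i := by
  classical
  simp [R]

theorem Red.mono {w : ℕ → ι → ℂ} {K K' : Finset ι} (h : K' ⊆ K) {i : ℕ} (hi : Red w K i) :
    Red w K' i := by
  obtain ⟨u, hu, c, hc⟩ := hi
  refine ⟨u, hu, c, ?_⟩
  have := congrArg (res K') hc
  rwa [res_res h, res_smul, res_res h] at this

theorem R_mono {w : ℕ → ι → ℂ} {s : ℕ} {K K' : Finset ι} (h : K' ⊆ K) :
    R w s K' ⊆ R w s K := by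
  intro i hi
  rw [mem_R] at hi ⊢
  exact ⟨hi.1, fun hr => hi.2 (hr.mono h)⟩

/-- As long as all gates are redundant, all forms are multiples of inputs. -/
theorem line_before {w : ℕ → ι → ℂ} {K : Finset ι} (hK : K.Nonempty) :
    ∀ m : ℕ, (∀ i < m, Red w K i) → ∀ v ∈ Av w m, ∃ j ∈ K, ∃ c : ℂ,
      res K v = c • (Pi.single j 1 : ι → ℂ) := by
  intro m
  induction m using Nat.strong_induction_on with
  | _ m ih =>
    intro hm v hv
    obtain ⟨j0, hj0⟩ := hK
    rcases hv with rfl | ⟨j, rfl⟩ | ⟨i', hi', rfl⟩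
    · exact ⟨j0, hj0, 0, by simp⟩
    · by_cases hj : j ∈ K
      · exact ⟨j, hj, 1, by rw [res_single hj, one_smul]⟩
      · exact ⟨j0, hj0, 0, by rw [res_single_not hj, zero_smul]⟩
    · obtain ⟨u, hu, c, hc⟩ := hm i' hi'
      obtain ⟨j, hj, c', hc'⟩ := ih i' hi' (fun i hi => hm i (hi.trans hi')) u hu
      exact ⟨j, hj, c * c', by rw [hc, hc', smul_smul]⟩

/-- The first gate that is not redundant adds multiples of two different inputs. -/
theorem first_gate {w : ℕ → ι → ℂ} {s : ℕ} (hw : IsSeq w s) {K : Finset ι} (hK : K.Nonempty)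
    {i : ℕ} (his : i < s) (hi : ¬ Red w K i) (hmin : ∀ i' < i, Red w K i') :
    ∃ a ∈ K, ∃ b ∈ K, a ≠ b ∧ ∃ α β : ℂ, α ≠ 0 ∧ β ≠ 0 ∧
      res K (w i) = α • (Pi.single a 1 : ι → ℂ) + β • (Pi.single b 1 : ι → ℂ) := by
  obtain ⟨u, hu, v, hv, c, d, hcd⟩ := hw i his
  obtain ⟨a, ha, c1, hc1⟩ := line_before hK i hmin u hu
  obtain ⟨b, hb, c2, hc2⟩ := line_before hK i hmin v hv
  have e : res K (w i) = (c * c1) • (Pi.single a 1 : ι → ℂ) + (d * c2) • (Pi.single b 1) := by
    rw [hcd, res_add, res_smul, res_smul, hc1, hc2, smul_smul, smul_smul]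
  have hα : c * c1 ≠ 0 := by
    intro h0
    apply hi
    refine ⟨Pi.single b 1, Av_single w i b, d * c2, ?_⟩
    rw [e, h0, zero_smul, zero_add, res_single hb]
  have hβ : d * c2 ≠ 0 := by
    intro h0
    apply hi
    refine ⟨Pi.single a 1, Av_single w i a, c * c1, ?_⟩
    rw [e, h0, zero_smul, add_zero, res_single ha]
  have hab : a ≠ b := by
    rintro rfl
    apply hi
    refine ⟨Pi.single a 1, Av_single w i a, c * c1 + d * c2, ?_⟩
    rw [e, add_smul, res_single ha]
  exact ⟨a, ha, b, hb, hab, _, _, hα, hβ, e⟩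

/-- Removing a suitable input makes two further gates redundant. -/
theorem two_kills {w : ℕ → ι → ℂ} {s : ℕ} (hw : IsSeq w s) {K : Finset ι} (hK : 2 ≤ K.card)
    (O : Set (ι → ℂ)) (hO : O ⊆ Av w s) (hO0 : O.Nonempty) (hne : ∀ o ∈ O, ∀ j ∈ K, o j ≠ 0)
    (hsep : ∀ a ∈ K, ∀ b ∈ K, a ≠ b → ∃ o ∈ O, ∃ o' ∈ O, o a * o' b ≠ o b * o' a) :
    ∃ a ∈ K, 2 ≤ (R w s K \ R w s (K.erase a)).card := by
  classical
  have hKne : K.Nonempty := Finset.card_pos.1 (by omega)
  -- no output is a multiple of an input
  have hnotline : ∀ o ∈ O, ∀ j ∈ K, ∀ c : ℂ, res K o ≠ c • (Pi.single j 1 : ι → ℂ) := by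
    intro o ho j hj c hc
    obtain ⟨k, hk, hkj⟩ : ∃ k ∈ K, k ≠ j := by
      by_contra hcon
      push Not at hcon
      have : K ⊆ {j} := fun k hk => by simp [hcon k hk]
      have := Finset.card_le_card this
      simp at this
      omega
    have := congrFun hc k
    rw [res_apply hk] at this
    simp [hkj] at this
    exact hne o ho k hk this
  -- some gate is not redundant
  have hex : ∃ i, i < s ∧ ¬ Red w K i := by
    by_contra hcon
    push Not at hcon
    obtain ⟨o, ho⟩ := hO0
    obtain ⟨j, hj, c, hc⟩ := line_before hKne s hcon o (hO ho)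
    exact hnotline o ho j hj c hc
  obtain ⟨i1, ⟨hi1s, hi1⟩, hmin⟩ : ∃ i1, (i1 < s ∧ ¬ Red w K i1) ∧ ∀ i' < i1, Red w K i' := by
    refine ⟨Nat.find hex, Nat.find_spec hex, fun i' hi' => ?_⟩
    have := Nat.find_min hex hi'
    by_contra hcon
    exact this ⟨hi'.trans (Nat.find_spec hex).1, hcon⟩
  obtain ⟨a, ha, b, hb, hab, α, β, hα, hβ, he⟩ := first_gate hw hKne hi1s hi1 hmin
  have hbE : b ∈ K.erase a := Finset.mem_erase.2 ⟨hab.symm, hb⟩
  have haE : a ∈ K.erase b := Finset.mem_erase.2 ⟨hab, ha⟩
  have ha' : i1 ∈ R w s K \ R w s (K.erase a) := by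
    rw [Finset.mem_sdiff, mem_R, mem_R]
    refine ⟨⟨hi1s, hi1⟩, fun h => h.2 ⟨Pi.single b 1, Av_single w _ b, β, ?_⟩⟩
    have := congrArg (res (K.erase a)) he
    rw [res_res (Finset.erase_subset _ _), res_add, res_smul, res_smul,
      res_single_not (Finset.notMem_erase a K), smul_zero, zero_add] at this
    exact this
  have hb' : i1 ∈ R w s K \ R w s (K.erase b) := by
    rw [Finset.mem_sdiff, mem_R, mem_R]
    refine ⟨⟨hi1s, hi1⟩, fun h => h.2 ⟨Pi.single a 1, Av_single w _ a, α, ?_⟩⟩
    have := congrArg (res (K.erase b)) he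
    rw [res_res (Finset.erase_subset _ _), res_add, res_smul, res_smul,
      res_single_not (Finset.notMem_erase b K), smul_zero, add_zero] at this
    exact this
  by_contra hcon
  push Not at hcon
  have only : ∀ x, x = a ∨ x = b → ∀ i ∈ R w s K \ R w s (K.erase x), i = i1 := by
    intro x hx i hi
    have hxK : x ∈ K := by rcases hx with rfl | rfl <;> assumption
    have h1 := hcon x hxK
    have h2 : i1 ∈ R w s K \ R w s (K.erase x) := by rcases hx with rfl | rfl <;> assumption
    exact Finset.card_le_one.1 (by omega) _ hi _ h2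
  -- the invariant
  have key : ∀ i ≤ s, ∀ v ∈ Av w i, (∃ j ∈ K, ∃ c : ℂ, res K v = c • (Pi.single j 1 : ι → ℂ)) ∨
      ∃ γ : ℂ, v a = γ * α ∧ v b = γ * β := by
    intro i
    induction i using Nat.strong_induction_on with
    | _ i ih =>
      intro his v hv
      rcases hv with rfl | ⟨j, rfl⟩ | ⟨i', hi', rfl⟩
      · exact Or.inr ⟨0, by simp, by simp⟩
      · by_cases hj : j ∈ K
        · exact Or.inl ⟨j, hj, 1, by rw [res_single hj, one_smul]⟩
        · refine Or.inr ⟨0, ?_, ?_⟩
          · have : a ≠ j := fun e => hj (e ▸ ha)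
            simp [this]
          · have : b ≠ j := fun e => hj (e ▸ hb)
            simp [this]
      · have hi's : i' < s := by omega
        obtain ⟨u, hu, v, hv, c, d, hcd⟩ := hw i' hi's
        by_cases hred : Red w K i'
        · obtain ⟨u', hu', c', hc'⟩ := hred
          rcases ih i' hi' (by omega) u' hu' with ⟨j, hj, c2, hc2⟩ | ⟨γ, h1, h2⟩
          · exact Or.inl ⟨j, hj, c' * c2, by rw [hc', hc2, smul_smul]⟩
          · right
            refine ⟨c' * γ, ?_, ?_⟩
            · have := congrFun hc' a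
              rw [Pi.smul_apply, res_apply ha, res_apply ha, h1, smul_eq_mul] at this
              rw [this]; ring
            · have := congrFun hc' b
              rw [Pi.smul_apply, res_apply hb, res_apply hb, h2, smul_eq_mul] at this
              rw [this]; ring
        · -- the gate is not redundant
          by_cases hi1' : i' = i1
          · right
            subst hi1'
            refine ⟨1, ?_, ?_⟩
            · have := congrFun he a
              rw [res_apply ha] at this
              rw [this]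
              simp [hab]
            · have := congrFun he b
              rw [res_apply hb] at this
              rw [this]
              simp [hab.symm]
          · -- both arguments have their `a, b` coordinates in the line
            have hx : ∀ x, x = a ∨ x = b → ∀ u₀ ∈ Av w i', ∀ v₀ ∈ Av w i', ∀ c₀ d₀ : ℂ,
                w i' = c₀ • u₀ + d₀ • v₀ → ∀ c₁ : ℂ, res K u₀ = c₁ • (Pi.single x 1 : ι → ℂ) →
                False := by
              intro x hx u₀ hu₀ v₀ hv₀ c₀ d₀ hw₀ c₁ hc₁
              have hxK : x ∈ K := by rcases hx with rfl | rfl <;> assumption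
              apply hi1'
              apply only x hx
              rw [Finset.mem_sdiff, mem_R, mem_R]
              refine ⟨⟨hi's, hred⟩, fun h => h.2 ⟨v₀, hv₀, d₀, ?_⟩⟩
              have h0 : res (K.erase x) u₀ = 0 := by
                have := congrArg (res (K.erase x)) hc₁
                rwa [res_res (Finset.erase_subset _ _), res_smul,
                  res_single_not (Finset.notMem_erase x K), smul_zero] at this
              rw [hw₀, res_add, res_smul, res_smul, h0, smul_zero, zero_add]
            have hline : ∀ u₀ ∈ Av w i', ∀ v₀ ∈ Av w i', ∀ c₀ d₀ : ℂ,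
                w i' = c₀ • u₀ + d₀ • v₀ → ∃ γ : ℂ, u₀ a = γ * α ∧ u₀ b = γ * β := by
              intro u₀ hu₀ v₀ hv₀ c₀ d₀ hw₀
              rcases ih i' hi' (by omega) u₀ hu₀ with ⟨j, hj, c2, hc2⟩ | h
              · by_cases hja : j = a
                · subst hja
                  exact absurd (hx j (Or.inl rfl) u₀ hu₀ v₀ hv₀ c₀ d₀ hw₀ c2 hc2) id
                · by_cases hjb : j = b
                  · subst hjb
                    exact absurd (hx j (Or.inr rfl) u₀ hu₀ v₀ hv₀ c₀ d₀ hw₀ c2 hc2) id
                  · refine ⟨0, ?_, ?_⟩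
                    · have := congrFun hc2 a
                      rw [res_apply ha] at this
                      rw [this]
                      simp [Ne.symm hja]
                    · have := congrFun hc2 b
                      rw [res_apply hb] at this
                      rw [this]
                      simp [Ne.symm hjb]
              · exact h
            obtain ⟨γ1, h1, h2⟩ := hline u hu v hv c d hcd
            obtain ⟨γ2, h3, h4⟩ := hline v hv u hu d c (by rw [hcd, add_comm])
            right
            refine ⟨c * γ1 + d * γ2, ?_, ?_⟩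
            · rw [hcd]
              simp only [Pi.add_apply, Pi.smul_apply, smul_eq_mul, h1, h3]
              ring
            · rw [hcd]
              simp only [Pi.add_apply, Pi.smul_apply, smul_eq_mul, h2, h4]
              ring
  obtain ⟨o, ho, o', ho', hoo⟩ := hsep a ha b hb hab
  rcases key s le_rfl o (hO ho) with ⟨j, hj, c, hc⟩ | ⟨γ, h1, h2⟩
  · exact hnotline o ho j hj c hc
  rcases key s le_rfl o' (hO ho') with ⟨j, hj, c, hc⟩ | ⟨γ', h3, h4⟩
  · exact hnotline o' ho' j hj c hc
  apply hoo
  rw [h1, h2, h3, h4]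
  ring

end Vale.Agent.P344.H890
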