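import Vale.Agent.P344.H890.IrrMain
import Vale.Agent.P344.H120.GFinal

/-!
# From circuits to sequences of forms
-/

set_option linter.unusedSectionVars false

namespace Vale.Agent.P344.H890

open Finset Module
open scoped ArithmeticFunction.Omega

/-- The gate is a multiplication by a scalar that is not a rational number. -/
def IrrGate {α : Type} : Gate α → Prop
  | .add _ _ => False
  | .sub _ _ => False
  | .smul c _ => ¬ ∃ q : ℚ, c = q

open Classical in
/-- The multiplications by irrational scalars of a circuit. -/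
noncomputable def irrs {ι κ : Type} (C : Circuit ι κ) : Finset C.G :=
  Finset.univ.filter fun g => IrrGate (C.gate g)

theorem exists_enum {ι κ : Type} (C : Circuit ι κ) :
    ∃ (s : ℕ) (e : Fin s ≃ C.G), ∀ i j, C.depth (e i) < C.depth (e j) → i < j := by
  set e0 := (Fintype.equivFin C.G).symm with he0
  refine ⟨_, (Tuple.sort (C.depth ∘ e0)).trans e0, fun i j h => ?_⟩
  by_contra hij
  have := Tuple.monotone_sort (C.depth ∘ e0) (not_lt.1 hij)
  simp only [Function.comp_apply] at this
  simp only [Equiv.trans_apply] at h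
  omega

variable {n : ℕ} [NeZero n]

theorem dftMat_eq (j k : Fin n) : dftMat n j k = F (ix j) k := by
  have h := zeta_prim (n := n)
  rw [F_eq, ix_apply, ix_apply, dftMat, ← Nat.cast_mul]
  have : (((((j : ℕ) * (k : ℕ) : ℕ)) : ZMod n)) = ((((j : ℕ) * (k : ℕ) : ℕ) : ℤ) : ZMod n) := by
    push_cast; rfl
  rw [this, ZMod.stdAddChar_coe, ← Complex.exp_nat_mul]
  congr 1
  push_cast
  ring

/-- A circuit for `F_n` gives a sequence of forms. -/
theorem exists_seq (C : Circuit (Fin n) (Fin n)) (hC : C.Comp (dftMat n)) :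
    ∃ (w : ℕ → Fin n → ℂ) (s : ℕ) (I : Finset ℕ), IsSeq w s ∧ QSeq w s I ∧
      (∀ t : ZMod n, F t ∈ Av w s) ∧ (R w s univ).card ≤ C.adds.card ∧ I.card = (irrs C).card := by
  classical
  obtain ⟨f, hf, hout⟩ := hC
  obtain ⟨s, e, he⟩ := exists_enum C
  have hinj : Function.Injective fun g => ((e.symm g : Fin s) : ℕ) :=
    fun a b hab => e.symm.injective (Fin.ext hab)
  set w : ℕ → Fin n → ℂ := fun i => if h : i < s then f (e ⟨i, h⟩) else 0 with hw
  have hwi : ∀ g : C.G, w (e.symm g : ℕ) = f g := by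
    intro g
    simp [hw]
  have hwe : ∀ (i : ℕ) (h : i < s), w i = f (e ⟨i, h⟩) := by
    intro i h
    simp [hw, h]
  have hav : ∀ (i : ℕ) (h : i < s) (a : Option (Fin n) ⊕ C.G), a ∈ (C.gate (e ⟨i, h⟩)).args →
      C.cell f a ∈ Av w i := by
    intro i h a ha
    rcases a with (_ | j) | g
    · exact Av_zero _ _
    · exact Av_single _ _ _
    · have h1 := C.depth_lt _ _ ha
      have h2 : e.symm g < ⟨i, h⟩ := by
        apply he
        rwa [Equiv.apply_symm_apply]
      have h3 : w (e.symm g : ℕ) ∈ Av w i := Av_gate w h2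
      rw [hwi] at h3
      exact h3
  have hend : ∀ a : Option (Fin n) ⊕ C.G, C.cell f a ∈ Av w s := by
    intro a
    rcases a with (_ | j) | g
    · exact Av_zero _ _
    · exact Av_single _ _ _
    · have h3 : w (e.symm g : ℕ) ∈ Av w s := Av_gate w (e.symm g).2
      rw [hwi] at h3
      exact h3
  set I : Finset ℕ := (irrs C).image fun g => ((e.symm g : Fin s) : ℕ) with hI
  have hIm : ∀ (i : ℕ) (h : i < s), i ∈ I ↔ IrrGate (C.gate (e ⟨i, h⟩)) := by
    intro i h
    simp only [hI, Finset.mem_image, irrs, Finset.mem_filter, Finset.mem_univ, true_and]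
    constructor
    · rintro ⟨g, hg, hgi⟩
      have : (⟨i, h⟩ : Fin s) = e.symm g := Fin.ext hgi.symm
      rw [this, Equiv.apply_symm_apply]
      exact hg
    · intro hg
      exact ⟨e ⟨i, h⟩, hg, by simp⟩
  have hIlt : ∀ i ∈ I, i < s := by
    intro i hi
    simp only [hI, Finset.mem_image] at hi
    obtain ⟨g, _, rfl⟩ := hi
    exact (e.symm g).2
  refine ⟨w, s, I, ?_, ⟨hIlt, ?_, ?_⟩, ?_, ?_, ?_⟩
  · intro i h
    have h1 := hf (e ⟨i, h⟩)
    have h2 := hav i h
    rw [hwe i h]
    cases hg : C.gate (e ⟨i, h⟩) with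
    | add p q =>
      rw [hg] at h1 h2
      refine ⟨_, h2 p (by simp [Gate.args]), _, h2 q (by simp [Gate.args]), 1, 1, ?_⟩
      rw [h1, Gate.eval, one_smul, one_smul]
    | sub p q =>
      rw [hg] at h1 h2
      refine ⟨_, h2 p (by simp [Gate.args]), _, h2 q (by simp [Gate.args]), 1, -1, ?_⟩
      rw [h1, Gate.eval, one_smul, neg_one_smul, sub_eq_add_neg]
    | smul c p =>
      rw [hg] at h1 h2
      refine ⟨_, h2 p (by simp [Gate.args]), 0, Av_zero _ _, c, 0, ?_⟩
      rw [h1, Gate.eval, smul_zero, add_zero]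
  · intro i hi
    have h := hIlt i hi
    have hirr := (hIm i h).1 hi
    have h1 := hf (e ⟨i, h⟩)
    have h2 := hav i h
    rw [hwe i h]
    cases hg : C.gate (e ⟨i, h⟩) with
    | add p q => rw [hg] at hirr; exact hirr.elim
    | sub p q => rw [hg] at hirr; exact hirr.elim
    | smul c p =>
      rw [hg] at h1 h2 hirr
      exact ⟨c, hirr, _, h2 p (by simp [Gate.args]), h1⟩
  · intro i h hi
    have hirr : ¬ IrrGate (C.gate (e ⟨i, h⟩)) := fun h' => hi ((hIm i h).2 h')
    have h1 := hf (e ⟨i, h⟩)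
    have h2 := hav i h
    rw [hwe i h]
    cases hg : C.gate (e ⟨i, h⟩) with
    | add p q =>
      rw [hg] at h1 h2
      refine ⟨_, h2 p (by simp [Gate.args]), _, h2 q (by simp [Gate.args]), 1, 1, ?_⟩
      rw [h1, Gate.eval, Rat.cast_one, one_smul, one_smul]
    | sub p q =>
      rw [hg] at h1 h2
      refine ⟨_, h2 p (by simp [Gate.args]), _, h2 q (by simp [Gate.args]), 1, -1, ?_⟩
      rw [h1, Gate.eval, Rat.cast_neg, Rat.cast_one, one_smul, neg_one_smul, sub_eq_add_neg]
    | smul c p =>
      rw [hg] at h1 h2 hirr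
      have h3 : ∃ q : ℚ, c = q := not_not.1 hirr
      obtain ⟨q, rfl⟩ := h3
      refine ⟨_, h2 p (by simp [Gate.args]), 0, Av_zero _ _, q, 0, ?_⟩
      rw [h1, Gate.eval, smul_zero, add_zero]
  · intro t
    have h1 := hend (C.out (ix.symm t))
    have h2 : C.cell f (C.out (ix.symm t)) = F t := by
      funext k
      rw [hout, dftMat_eq, Equiv.apply_symm_apply]
    rw [h2] at h1
    exact h1
  · have hsub : R w s univ ⊆ C.adds.image fun g => ((e.symm g : Fin s) : ℕ) := by
      intro i hi
      rw [mem_R] at hi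
      obtain ⟨h, hred⟩ := hi
      have h1 := hf (e ⟨i, h⟩)
      have h2 := hav i h
      simp only [Finset.mem_image]
      refine ⟨e ⟨i, h⟩, ?_, by simp⟩
      simp only [Circuit.adds, Finset.mem_filter, Finset.mem_univ, true_and]
      cases hg : C.gate (e ⟨i, h⟩) with
      | add p q => trivial
      | sub p q => trivial
      | smul c p =>
        exfalso
        rw [hg] at h1 h2
        apply hred
        refine ⟨_, h2 p (by simp [Gate.args]), c, ?_⟩
        rw [hwe i h, h1, Gate.eval, res_smul]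
    calc (R w s univ).card ≤ _ := Finset.card_le_card hsub
      _ = C.adds.card := Finset.card_image_of_injective _ hinj
  · exact Finset.card_image_of_injective _ hinj

/-- **Additions.**  Every circuit for `F_n` has at least `3n - 2 - 2Ω(n)` additions and
subtractions. -/
theorem adds_bound (hn : 2 ≤ n) (C : Circuit (Fin n) (Fin n)) (hC : C.Comp (dftMat n)) :
    3 * n ≤ C.adds.card + 2 + 2 * Ω n := by
  obtain ⟨w, s, I, hw, hq, hF, hR, hI⟩ := exists_seq C hC
  have := card_R_univ hn hw hF
  omega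

/-- **Irrational multiplications.** -/
theorem irrs_bound (C : Circuit (Fin n) (Fin n)) (hC : C.Comp (dftMat n)) (u : (ZMod n)ˣ) :
    2 * n ≤ (irrs C).card + Lam n u := by
  obtain ⟨w, s, I, hw, hq, hF, hR, hI⟩ := exists_seq C hC
  have := card_irr hq hF u
  omega

theorem adds_add_irrs (C : Circuit (Fin n) (Fin n)) :
    C.adds.card + (irrs C).card ≤ Fintype.card C.G := by
  classical
  rw [← Finset.card_union_of_disjoint, ← Finset.card_univ]
  · exact Finset.card_le_card (Finset.subset_univ _)
  · rw [Finset.disjoint_left]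
    intro g hg hg'
    simp only [Circuit.adds, irrs, Finset.mem_filter, Finset.mem_univ, true_and] at hg hg'
    cases h : C.gate g with
    | add p q => rw [h] at hg'; exact hg'
    | sub p q => rw [h] at hg'; exact hg'
    | smul c p => rw [h] at hg; exact hg

theorem L_bound (hn : 2 ≤ n) (u : (ZMod n)ˣ) : 5 * n ≤ L n + 2 + 2 * Ω n + Lam n u := by
  obtain ⟨C, hC, hs⟩ := (isLeast_comp (n := n) (by omega)).1
  have h1 := adds_bound hn C hC
  have h2 := irrs_bound C hC u
  have h3 := adds_add_irrs C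
  omega

end Vale.Agent.P344.H890
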