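import Mathlib

/-!
# Chains of subspaces invariant under a permutation
-/

set_option linter.unusedSectionVars false

namespace Vale.Agent.P344.H890

open Finset Polynomial Module

section chain

variable {V : Type*} [AddCommGroup V] [Module ℚ V]

/-- An invariant subspace as a module over the polynomial ring. -/
noncomputable def inv (T : Module.End ℚ V) (S : Submodule ℚ V) (h : ∀ x ∈ S, T x ∈ S) :
    Submodule ℚ[X] (AEval' T) :=
  AEval.mapSubmodule ℚ V T ⟨S, fun x hx => h x hx⟩

theorem mem_inv {T : Module.End ℚ V} {S : Submodule ℚ V} {h : ∀ x ∈ S, T x ∈ S} {x : V} :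
    AEval'.of T x ∈ inv T S h ↔ x ∈ S := by
  rw [inv, AEval.mem_mapSubmodule_apply]
  rfl

/-- A chain of invariant subspaces is no longer than the length of the module. -/
theorem chain_le [FiniteDimensional ℚ V] (T : Module.End ℚ V) (S : ℕ → Submodule ℚ V)
    (hS : ∀ i, ∀ x ∈ S i, T x ∈ S i) (x : ℕ → V) (D : Finset ℕ) (h1 : ∀ i ∈ D, x i ∉ S i)
    (h2 : ∀ i ∈ D, ∀ i' ∈ D, i < i' → x i' ∈ S i) :
    (D.card : ℕ∞) ≤ Module.length ℚ[X] (AEval' T) := by
  classical
  have : Module.Finite ℚ (AEval' T) := inferInstanceAs (Module.Finite ℚ V)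
  have : IsNoetherian ℚ (AEval' T) := inferInstance
  have : IsArtinian ℚ (AEval' T) := inferInstance
  have : IsNoetherian ℚ[X] (AEval' T) := isNoetherian_of_tower ℚ inferInstance
  have : IsArtinian ℚ[X] (AEval' T) := isArtinian_of_tower ℚ inferInstance
  have key : ∀ D : Finset ℕ, (∀ i ∈ D, x i ∉ S i) → (∀ i ∈ D, ∀ i' ∈ D, i < i' → x i' ∈ S i) →
      (D.card : ℕ∞) + Order.height (⨅ i ∈ D, inv T (S i) (hS i)) ≤
        Module.length ℚ[X] (AEval' T) := by
    intro D
    induction D using Finset.induction_on_max with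
    | empty =>
      intro _ _
      simp [Module.length_eq_height]
    | insert a D ha ih =>
      intro h1 h2
      have haD : a ∉ D := fun h => lt_irrefl _ (ha a h)
      have ih' := ih (fun i hi => h1 i (mem_insert_of_mem hi))
        (fun i hi i' hi' => h2 i (mem_insert_of_mem hi) i' (mem_insert_of_mem hi'))
      refine le_trans ?_ ih'
      rw [Finset.card_insert_of_notMem haD]
      have hlt : (⨅ i ∈ insert a D, inv T (S i) (hS i)) < ⨅ i ∈ D, inv T (S i) (hS i) := by
        rw [Finset.iInf_insert]
        refine lt_of_le_of_ne inf_le_right ?_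
        intro heq
        have hmem : AEval'.of T (x a) ∈ ⨅ i ∈ D, inv T (S i) (hS i) := by
          rw [Submodule.mem_iInf]
          intro i
          rw [Submodule.mem_iInf]
          intro hi
          rw [mem_inv]
          exact h2 i (mem_insert_of_mem hi) a (mem_insert_self a D) (ha i hi)
        rw [← heq] at hmem
        exact h1 a (mem_insert_self a D) (mem_inv.1 hmem.1)
      have := Submodule.height_strictMono hlt
      have := Order.add_one_le_of_lt this
      calc ((D.card + 1 : ℕ) : ℕ∞) + Order.height (⨅ i ∈ insert a D, inv T (S i) (hS i))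
          = (D.card : ℕ∞) + (Order.height (⨅ i ∈ insert a D, inv T (S i) (hS i)) + 1) := by
            push_cast
            ring
        _ ≤ _ := by gcongr
  exact le_trans le_self_add (key D h1 h2)

end chain

theorem ord_prod {R : Type*} [CommRing R] [IsDomain R] {α : Type*} (s : Finset α) (f : α → R)
    (h : ∀ i ∈ s, f i ≠ 0) : Ring.ord R (∏ i ∈ s, f i) = ∑ i ∈ s, Ring.ord R (f i) := by
  classical
  induction s using Finset.induction_on with
  | empty => simp
  | insert a s ha ih =>
    rw [Finset.prod_insert ha, Finset.sum_insert ha, Ring.ord_mul', ih]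
    · exact fun i hi => h i (mem_insert_of_mem hi)
    · exact mem_nonZeroDivisors_of_ne_zero (h a (mem_insert_self a s))

theorem ord_X_pow_sub_one {l : ℕ} (hl : 0 < l) :
    Ring.ord ℚ[X] (X ^ l - 1) = (l.divisors.card : ℕ∞) := by
  rw [← prod_cyclotomic_eq_X_pow_sub_one hl ℚ, ord_prod]
  · rw [Finset.sum_congr rfl (g := fun _ => 1)]
    · simp
    · intro i hi
      exact Ring.ord_of_irreducible (cyclotomic.irreducible_rat (Nat.pos_of_mem_divisors hi))
  · intro i _
    exact cyclotomic_ne_zero i ℚ

section perm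

variable {ι : Type*} [Fintype ι] [DecidableEq ι]

/-- The operator that moves the basis vector `e_j` to `e_{σ j}`. -/
def permT (σ : Equiv.Perm ι) : Module.End ℚ (ι → ℚ) := LinearMap.funLeft ℚ ℚ σ.symm

theorem permT_apply (σ : Equiv.Perm ι) (x : ι → ℚ) (j : ι) : permT σ x j = x (σ.symm j) := rfl

theorem permT_single (σ : Equiv.Perm ι) (j : ι) :
    permT σ (Pi.single j 1) = Pi.single (σ j) 1 := by
  funext k
  rw [permT_apply, Pi.single_apply, Pi.single_apply]
  simp only [Equiv.symm_apply_eq]

theorem permT_pow_single (σ : Equiv.Perm ι) (k : ℕ) (j : ι) :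
    (permT σ ^ k) (Pi.single j 1) = Pi.single ((σ ^ k) j) 1 := by
  induction k with
  | zero => simp
  | succ k ih => rw [pow_succ', Module.End.mul_apply, ih, permT_single, pow_succ']; rfl

/-- The orbits of `σ`. -/
abbrev Orb (σ : Equiv.Perm ι) : Type _ := Quotient (Equiv.Perm.SameCycle.setoid σ)

/-- The length of the orbit of `j`. -/
noncomputable def len (σ : Equiv.Perm ι) (j : ι) : ℕ := Function.minimalPeriod σ j

theorem len_pos (σ : Equiv.Perm ι) (j : ι) : 0 < len σ j := by
  apply Function.minimalPeriod_pos_of_mem_periodicPts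
  exact Function.Injective.mem_periodicPts σ.injective j

theorem pow_len (σ : Equiv.Perm ι) (j : ι) : (σ ^ len σ j) j = j := by
  have := Function.iterate_minimalPeriod (f := σ) (x := j)
  rw [Equiv.Perm.iterate_eq_pow] at this
  exact this

noncomputable instance (σ : Equiv.Perm ι) : Fintype (Orb σ) := Fintype.ofFinite _

/-- The contribution of one orbit. -/
noncomputable def orbMap (σ : Equiv.Perm ι) (q : Orb σ) :
    (ℚ[X] ⧸ Ideal.span {(X ^ len σ q.out - 1 : ℚ[X])}) →ₗ[ℚ[X]] AEval' (permT σ) :=
  Submodule.liftQ _ (LinearMap.toSpanSingleton ℚ[X] _ (AEval'.of (permT σ) (Pi.single q.out 1)))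
    (by
      rw [Ideal.span, Submodule.span_le, Set.singleton_subset_iff]
      rw [SetLike.mem_coe, LinearMap.mem_ker, LinearMap.toSpanSingleton_apply, sub_smul, one_smul,
        AEval.X_pow_smul_of, sub_eq_zero]
      change AEval'.of (permT σ) ((permT σ ^ len σ q.out) (Pi.single q.out 1)) = _
      rw [permT_pow_single, pow_len])

theorem orbMap_mk (σ : Equiv.Perm ι) (q : Orb σ) (p : ℚ[X]) :
    orbMap σ q (Submodule.Quotient.mk p) = p • AEval'.of (permT σ) (Pi.single q.out 1) := rfl

/-- The sum of the contributions of the orbits. -/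
noncomputable def allMap (σ : Equiv.Perm ι) :
    (∀ q : Orb σ, ℚ[X] ⧸ Ideal.span {(X ^ len σ q.out - 1 : ℚ[X])}) →ₗ[ℚ[X]]
      AEval' (permT σ) :=
  ∑ q, (orbMap σ q).comp (LinearMap.proj q)

theorem allMap_surjective (σ : Equiv.Perm ι) : Function.Surjective (allMap σ) := by
  classical
  have hsingle : ∀ j : ι, ∃ p, allMap σ p = AEval'.of (permT σ) (Pi.single j 1) := by
    intro j
    set q : Orb σ := Quotient.mk _ j with hq
    have hrel : (Equiv.Perm.SameCycle.setoid σ) q.out j := Quotient.exact (by rw [Quotient.out_eq])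
    have hsc : σ.SameCycle q.out j := hrel
    obtain ⟨k, hk⟩ := hsc.exists_nat_pow_eq
    refine ⟨Pi.single q (Submodule.Quotient.mk (X ^ k)), ?_⟩
    rw [allMap, LinearMap.sum_apply, Finset.sum_eq_single q]
    · rw [LinearMap.comp_apply, LinearMap.proj_apply, Pi.single_eq_same, orbMap_mk,
        AEval.X_pow_smul_of]
      change AEval'.of (permT σ) ((permT σ ^ k) (Pi.single q.out 1)) = _
      rw [permT_pow_single, hk]
    · intro q' _ hq'
      rw [LinearMap.comp_apply, LinearMap.proj_apply, Pi.single_eq_of_ne hq', map_zero]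
    · intro h
      exact absurd (Finset.mem_univ q) h
  intro y
  obtain ⟨x, rfl⟩ := (AEval'.of (permT σ)).surjective y
  choose p hp using hsingle
  refine ⟨∑ j, (C (x j)) • p j, ?_⟩
  rw [map_sum]
  have hx : x = ∑ j, x j • (Pi.single j 1 : ι → ℚ) := by
    funext k
    simp [Finset.sum_apply, Pi.single_apply]
  conv_rhs => rw [hx, map_sum]
  apply Finset.sum_congr rfl
  intro j _
  rw [map_smul, hp, AEval.C_smul, map_smul]

/-- `Σ d(ℓ)` over the orbits of `σ`, `ℓ` being the length of the orbit. -/
theorem length_le (σ : Equiv.Perm ι) :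
    Module.length ℚ[X] (AEval' (permT σ)) ≤
      ((∑ q : Orb σ, (len σ q.out).divisors.card : ℕ) : ℕ∞) := by
  refine le_trans (Module.length_le_of_surjective (allMap σ) (allMap_surjective σ)) ?_
  rw [Module.length_pi_of_fintype]
  push_cast
  apply Finset.sum_le_sum
  intro q _
  have := ord_X_pow_sub_one (len_pos σ q.out)
  rw [Ring.ord] at this
  rw [this]

/-- Fixed vectors. -/
theorem finrank_fixed_le (σ : Equiv.Perm ι) (N : Submodule ℚ (ι → ℚ))
    (h : ∀ x ∈ N, permT σ x = x) : Module.finrank ℚ N ≤ Fintype.card (Orb σ) := by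
  let f : N →ₗ[ℚ] (Orb σ → ℚ) :=
    { toFun := fun x q => (x : ι → ℚ) q.out
      map_add' := fun x y => rfl
      map_smul' := fun c x => rfl }
  have hf : Function.Injective f := by
    rw [← LinearMap.ker_eq_bot, LinearMap.ker_eq_bot']
    intro x hx
    have hfix := h x x.2
    have hpow : ∀ k : ℕ, ∀ j, (x : ι → ℚ) ((σ ^ k) j) = (x : ι → ℚ) j := by
      intro k
      induction k with
      | zero => intro j; simp
      | succ k ih =>
        intro j
        rw [pow_succ', Equiv.Perm.mul_apply, ← ih j]
        have := congrFun hfix (σ ((σ ^ k) j))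
        rw [permT_apply, Equiv.symm_apply_apply] at this
        exact this.symm
    apply Subtype.ext
    funext j
    set q : Orb σ := Quotient.mk _ j with hq
    have hrel : (Equiv.Perm.SameCycle.setoid σ) q.out j := Quotient.exact (by rw [Quotient.out_eq])
    have hsc : σ.SameCycle q.out j := hrel
    obtain ⟨k, hk⟩ := hsc.exists_nat_pow_eq
    rw [← hk, hpow]
    exact congrFun hx q
  have := LinearMap.finrank_le_finrank_of_injective hf
  simpa using this

end perm

end Vale.Agent.P344.H890
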