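import Vale.Agent.P344.H890.Adds

/-!
# Scalar multiplications by irrational coefficients: two flags
-/

set_option linter.unusedSectionVars false

namespace Vale.Agent.P344.H890

open Finset

variable {ι κ : Type*} [Fintype ι] [DecidableEq ι] [Fintype κ]

/-- The complex number is rational. -/
def IsQ (z : ℂ) : Prop := ∃ q : ℚ, z = q

theorem IsQ.add {a b : ℂ} (ha : IsQ a) (hb : IsQ b) : IsQ (a + b) := by
  obtain ⟨p, rfl⟩ := ha; obtain ⟨q, rfl⟩ := hb; exact ⟨p + q, by push_cast; rfl⟩

theorem IsQ.mul {a b : ℂ} (ha : IsQ a) (hb : IsQ b) : IsQ (a * b) := by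
  obtain ⟨p, rfl⟩ := ha; obtain ⟨q, rfl⟩ := hb; exact ⟨p * q, by push_cast; rfl⟩

theorem IsQ.sub {a b : ℂ} (ha : IsQ a) (hb : IsQ b) : IsQ (a - b) := by
  obtain ⟨p, rfl⟩ := ha; obtain ⟨q, rfl⟩ := hb; exact ⟨p - q, by push_cast; rfl⟩

theorem isQ_cast (q : ℚ) : IsQ (q : ℂ) := ⟨q, rfl⟩

theorem isQ_zero : IsQ 0 := ⟨0, by simp⟩

/-- A circuit whose scalar multiplications by irrational coefficients are the gates in `I`. -/
structure QSeq (w : ℕ → ι → ℂ) (s : ℕ) (I : Finset ℕ) : Prop where
  lt : ∀ i ∈ I, i < s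
  irr : ∀ i ∈ I, ∃ c : ℂ, ¬ IsQ c ∧ ∃ u ∈ Av w i, w i = c • u
  rat : ∀ i < s, i ∉ I → ∃ u ∈ Av w i, ∃ v ∈ Av w i, ∃ p q : ℚ, w i = (p : ℂ) • u + (q : ℂ) • v

theorem QSeq.expand {w : ℕ → ι → ℂ} {s : ℕ} {I : Finset ℕ} (h : QSeq w s I) :
    ∀ i ≤ s, ∀ v ∈ Av w i, ∃ A : ι → ℚ, ∃ B : ℕ → ℚ, (∀ j, B j ≠ 0 → j < i) ∧
      v = (fun k => (A k : ℂ)) + ∑ j ∈ I, (B j : ℂ) • w j := by
  classical
  intro i
  induction i using Nat.strong_induction_on with
  | _ i ih =>
    intro his v hv
    rcases hv with rfl | ⟨k, rfl⟩ | ⟨i', hi', rfl⟩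
    · refine ⟨0, 0, fun j hj => absurd rfl hj, ?_⟩
      funext k
      simp
    · refine ⟨Pi.single k 1, 0, fun j hj => absurd rfl hj, ?_⟩
      funext l
      by_cases hl : l = k
      · subst hl; simp
      · simp [hl]
    · by_cases hI : i' ∈ I
      · refine ⟨0, Pi.single i' 1, fun j hj => ?_, ?_⟩
        · by_contra hcon
          apply hj
          rw [Pi.single_apply, if_neg]
          rintro rfl
          exact hcon hi'
        · rw [Finset.sum_eq_single i']
          · funext l; simp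
          · intro j _ hj
            simp [hj]
          · intro h'
            exact absurd hI h'
      · obtain ⟨u, hu, v, hv, p, q, hpq⟩ := h.rat i' (by omega) hI
        obtain ⟨A1, B1, hB1, hA1⟩ := ih i' hi' (by omega) u hu
        obtain ⟨A2, B2, hB2, hA2⟩ := ih i' hi' (by omega) v hv
        refine ⟨fun k => p * A1 k + q * A2 k, fun j => p * B1 j + q * B2 j, ?_, ?_⟩
        · intro j hj
          by_contra hcon
          apply hj
          have h1 : B1 j = 0 := by
            by_contra h0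
            exact hcon ((hB1 j h0).trans hi')
          have h2 : B2 j = 0 := by
            by_contra h0
            exact hcon ((hB2 j h0).trans hi')
          simp [h1, h2]
        · rw [hpq]
          conv_lhs => rw [hA1, hA2]
          funext l
          simp only [Pi.add_apply, Pi.smul_apply, Finset.sum_apply, smul_eq_mul, Rat.cast_add,
            Rat.cast_mul, add_mul, Finset.sum_add_distrib, mul_add, Finset.mul_sum]
          simp only [mul_assoc]
          ring

/-- The value of a form at a rational vector. -/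
def ev (x : ι → ℚ) (v : ι → ℂ) : ℂ := ∑ k, v k * (x k : ℂ)

theorem ev_add (x : ι → ℚ) (u v : ι → ℂ) : ev x (u + v) = ev x u + ev x v := by
  simp [ev, add_mul, Finset.sum_add_distrib]

theorem ev_smul (x : ι → ℚ) (c : ℂ) (v : ι → ℂ) : ev x (c • v) = c * ev x v := by
  simp [ev, Finset.mul_sum, mul_assoc]

theorem ev_sum {α : Type*} (x : ι → ℚ) (s : Finset α) (f : α → ι → ℂ) :
    ev x (∑ j ∈ s, f j) = ∑ j ∈ s, ev x (f j) := by
  simp only [ev, Finset.sum_apply, Finset.sum_mul]
  rw [Finset.sum_comm]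

theorem ev_rat (x : ι → ℚ) (A : ι → ℚ) :
    ev x (fun k => (A k : ℂ)) = ((∑ k, A k * x k : ℚ) : ℂ) := by
  simp [ev]

theorem ev_expand (x : ι → ℚ) (A : ι → ℚ) (B : ℕ → ℚ) (I : Finset ℕ) (w : ℕ → ι → ℂ) :
    ev x ((fun k => (A k : ℂ)) + ∑ j ∈ I, (B j : ℂ) • w j) =
      ((∑ k, A k * x k : ℚ) : ℂ) + ∑ j ∈ I, (B j : ℂ) * ev x (w j) := by
  rw [ev_add, ev_rat, ev_sum]
  simp only [ev_smul]

/-- The rational vectors at which the first irrational gates vanish. -/
def Ud (w : ℕ → ι → ℂ) (I : Finset ℕ) (i : ℕ) : Submodule ℚ (ι → ℚ) where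
  carrier := {x | ∀ j ∈ I, j < i → ev x (w j) = 0}
  zero_mem' := fun j _ _ => by simp [ev]
  add_mem' := by
    intro x y hx hy j hj hji
    have : ev (x + y) (w j) = ev x (w j) + ev y (w j) := by
      simp [ev, mul_add, Finset.sum_add_distrib]
    rw [this, hx j hj hji, hy j hj hji, add_zero]
  smul_mem' := by
    intro c x hx j hj hji
    have : ev (c • x) (w j) = (c : ℂ) * ev x (w j) := by
      simp only [ev, Pi.smul_apply, smul_eq_mul, Rat.cast_mul, Finset.mul_sum]
      refine Finset.sum_congr rfl fun k _ => by ring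
    rw [this, hx j hj hji, mul_zero]

theorem mem_Ud {w : ℕ → ι → ℂ} {I : Finset ℕ} {i : ℕ} {x : ι → ℚ} :
    x ∈ Ud w I i ↔ ∀ j ∈ I, j < i → ev x (w j) = 0 := Iff.rfl

/-- The functional `∑ A_k x_k`. -/
def fnl {α : Type*} [Fintype α] (A : α → ℚ) : (α → ℚ) →ₗ[ℚ] ℚ where
  toFun x := ∑ k, A k * x k
  map_add' x y := by simp [mul_add, Finset.sum_add_distrib]
  map_smul' c x := by
    simp only [Pi.smul_apply, smul_eq_mul, RingHom.id_apply, Finset.mul_sum]
    exact Finset.sum_congr rfl fun k _ => by ring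

theorem fnl_apply {α : Type*} [Fintype α] (A : α → ℚ) (x : α → ℚ) :
    fnl A x = ∑ k, A k * x k := rfl

/-- On the flag, an irrational gate is an irrational multiple of a rational functional. -/
theorem QSeq.gate {w : ℕ → ι → ℂ} {s : ℕ} {I : Finset ℕ} (h : QSeq w s I) {i : ℕ} (hi : i ∈ I) :
    ∃ c : ℂ, ¬ IsQ c ∧ ∃ g : (ι → ℚ) →ₗ[ℚ] ℚ, ∀ x ∈ Ud w I i, ev x (w i) = c * (g x : ℂ) := by
  obtain ⟨c, hc, u, hu, hcu⟩ := h.irr i hi
  obtain ⟨A, B, hB, hA⟩ := h.expand i (h.lt i hi).le u hu
  refine ⟨c, hc, fnl A, fun x hx => ?_⟩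
  rw [hcu, ev_smul, hA, ev_expand, fnl_apply]
  congr 1
  have hz : ∑ j ∈ I, (B j : ℂ) * ev x (w j) = 0 := by
    refine Finset.sum_eq_zero fun j hj => ?_
    by_cases h0 : B j = 0
    · simp [h0]
    · rw [hx j hj (hB j h0), mul_zero]
  rw [hz, add_zero]

theorem finrank_inf_ker {V : Type*} [AddCommGroup V] [Module ℚ V] [FiniteDimensional ℚ V]
    (U : Submodule ℚ V) (g : V →ₗ[ℚ] ℚ) :
    Module.finrank ℚ U ≤ Module.finrank ℚ (U ⊓ LinearMap.ker g : Submodule ℚ V) + 1 := by
  have h1 := LinearMap.finrank_range_add_finrank_ker (g.domRestrict U)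
  have h2 : Module.finrank ℚ (LinearMap.range (g.domRestrict U)) ≤ 1 := by
    have := Submodule.finrank_le (LinearMap.range (g.domRestrict U))
    simpa using this
  have h3 : Module.finrank ℚ (LinearMap.ker (g.domRestrict U)) ≤
      Module.finrank ℚ (U ⊓ LinearMap.ker g : Submodule ℚ V) := by
    let f : LinearMap.ker (g.domRestrict U) →ₗ[ℚ] (U ⊓ LinearMap.ker g : Submodule ℚ V) :=
      { toFun := fun x => ⟨((x : U) : V), (x : U).2, by
          have := x.2
          rw [LinearMap.mem_ker, LinearMap.domRestrict_apply] at this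
          exact this⟩
        map_add' := fun x y => rfl
        map_smul' := fun c x => rfl }
    apply LinearMap.finrank_le_finrank_of_injective (f := f)
    intro x y hxy
    apply Subtype.ext
    apply Subtype.ext
    exact congrArg (fun z : (U ⊓ LinearMap.ker g : Submodule ℚ V) => (z : V)) hxy
  omega

/-- The pairing. -/
def Phi (F : κ → ι → ℂ) (x : ι → ℚ) (c : κ → ℚ) : ℂ := ∑ t, (c t : ℂ) * ev x (F t)

/-- Two flags. -/
theorem QSeq.flags {w : ℕ → ι → ℂ} {s : ℕ} {I : Finset ℕ} (h : QSeq w s I) (F : κ → ι → ℂ)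
    (hF : ∀ t, F t ∈ Av w s) :
    ∃ (D : Finset ℕ) (x : ℕ → ι → ℚ) (c : ℕ → κ → ℚ) (Rin : Submodule ℚ (ι → ℚ))
      (Rout : Submodule ℚ (κ → ℚ)),
      (∀ x ∈ Rin, ∀ c, IsQ (Phi F x c)) ∧ (∀ c ∈ Rout, ∀ x, IsQ (Phi F x c)) ∧
      (∀ i ∈ D, ¬ IsQ (Phi F (x i) (c i))) ∧
      (∀ i ∈ D, ∀ i' ∈ D, i < i' → IsQ (Phi F (x i') (c i))) ∧
      Fintype.card ι + Fintype.card κ ≤
        I.card + D.card + Module.finrank ℚ Rin + Module.finrank ℚ Rout := by
  classical
  choose A B hB hA using fun t => h.expand s le_rfl (F t) (hF t)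
  -- the functionals on the output side
  let β : ℕ → (κ → ℚ) →ₗ[ℚ] ℚ := fun j => fnl fun t => B t j
  let Cd : ℕ → Submodule ℚ (κ → ℚ) := fun i =>
    { carrier := {c | ∀ j ∈ I, i ≤ j → β j c = 0}
      zero_mem' := fun j _ _ => map_zero _
      add_mem' := fun {x y} hx hy j hj hij => by rw [map_add, hx j hj hij, hy j hj hij, add_zero]
      smul_mem' := fun c x hx j hj hij => by rw [map_smul, hx j hj hij, smul_zero] }
  have mem_Cd : ∀ i c, c ∈ Cd i ↔ ∀ j ∈ I, i ≤ j → β j c = 0 := fun i c => Iff.rfl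
  have hPhi : ∀ x c, Phi F x c = ((∑ t, c t * ∑ k, A t k * x k : ℚ) : ℂ) +
      ∑ j ∈ I, (β j c : ℂ) * ev x (w j) := by
    intro x c
    have h1 : ∀ t, ev x (F t) = ((∑ k, A t k * x k : ℚ) : ℂ) + ∑ j ∈ I, (B t j : ℂ) * ev x (w j) :=
      fun t => by rw [hA t, ev_expand]
    simp only [Phi, h1, mul_add, Finset.sum_add_distrib]
    congr 1
    · push_cast; rfl
    · simp only [Finset.mul_sum]
      rw [Finset.sum_comm]
      apply Finset.sum_congr rfl
      intro j _
      have : (β j c : ℂ) = ∑ t, (B t j : ℂ) * (c t : ℂ) := by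
        simp only [β, fnl_apply]
        push_cast
        rfl
      rw [this, Finset.sum_mul]
      exact Finset.sum_congr rfl fun t _ => by ring
  -- the functionals on the input side
  have hg : ∀ i, ∃ c : ℂ, ∃ g : (ι → ℚ) →ₗ[ℚ] ℚ, i ∈ I → ¬ IsQ c ∧
      ∀ x ∈ Ud w I i, ev x (w i) = c * (g x : ℂ) := by
    intro i
    by_cases hi : i ∈ I
    · obtain ⟨c, hc, g, hg⟩ := h.gate hi
      exact ⟨c, g, fun _ => ⟨hc, hg⟩⟩
    · exact ⟨0, 0, fun h' => absurd h' hi⟩
  choose lam g hg using hg
  have hlam : ∀ i ∈ I, lam i ≠ 0 := fun i hi h0 => (hg i hi).1 (h0 ▸ isQ_zero)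
  have hUsucc : ∀ i ∈ I, Ud w I (i + 1) = Ud w I i ⊓ LinearMap.ker (g i) := by
    intro i hi
    ext x
    rw [Submodule.mem_inf, LinearMap.mem_ker]
    constructor
    · intro hx
      have hx' : x ∈ Ud w I i := fun j hj hji => hx j hj (hji.trans (Nat.lt_succ_self i))
      refine ⟨hx', ?_⟩
      have h1 := hx i hi (Nat.lt_succ_self i)
      rw [(hg i hi).2 x hx'] at h1
      have := (mul_eq_zero.1 h1).resolve_left (hlam i hi)
      exact_mod_cast this
    · rintro ⟨hx, h0⟩ j hj hji
      rcases Nat.lt_succ_iff_lt_or_eq.1 hji with h1 | h1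
      · exact hx j hj h1
      · subst h1
        rw [(hg j hi).2 x hx, h0]
        simp
  have hUsucc' : ∀ i ∉ I, Ud w I (i + 1) = Ud w I i := by
    intro i hi
    ext x
    constructor
    · intro hx j hj hji
      exact hx j hj (hji.trans (Nat.lt_succ_self i))
    · intro hx j hj hji
      rcases Nat.lt_succ_iff_lt_or_eq.1 hji with h1 | h1
      · exact hx j hj h1
      · subst h1
        exact absurd hj hi
  have hCsucc : ∀ i ∈ I, Cd i = Cd (i + 1) ⊓ LinearMap.ker (β i) := by
    intro i hi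
    ext c
    rw [Submodule.mem_inf, LinearMap.mem_ker]
    constructor
    · intro hc
      exact ⟨fun j hj hij => hc j hj (by omega), hc i hi le_rfl⟩
    · rintro ⟨hc, h0⟩ j hj hij
      rcases Nat.eq_or_lt_of_le hij with h1 | h1
      · subst h1
        exact h0
      · exact hc j hj h1
  have hCsucc' : ∀ i ∉ I, Cd i = Cd (i + 1) := by
    intro i hi
    ext c
    constructor
    · intro hc j hj hij
      exact hc j hj (by omega)
    · intro hc j hj hij
      rcases Nat.eq_or_lt_of_le hij with h1 | h1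
      · subst h1
        exact absurd hj hi
      · exact hc j hj h1
  -- pivots
  let P : Finset ℕ := I.filter fun i => ¬ Ud w I i ≤ LinearMap.ker (g i)
  let J : Finset ℕ := I.filter fun i => ¬ Cd (i + 1) ≤ LinearMap.ker (β i)
  have hP : ∀ i, Fintype.card ι ≤ Module.finrank ℚ (Ud w I i) + (P.filter (· < i)).card := by
    intro i
    induction i with
    | zero =>
      have : Ud w I 0 = ⊤ := by
        ext x
        simp [mem_Ud]
      rw [this]
      simp
    | succ i ih =>
      by_cases hi : i ∈ I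
      · by_cases hle : Ud w I i ≤ LinearMap.ker (g i)
        · rw [hUsucc i hi, inf_eq_left.2 hle]
          refine ih.trans ?_
          gcongr
          omega
        · have h1 := finrank_inf_ker (Ud w I i) (g i)
          rw [← hUsucc i hi] at h1
          have h2 : (P.filter (· < i)).card + 1 ≤ (P.filter (· < i + 1)).card := by
            rw [← Finset.card_insert_of_notMem (a := i) (s := P.filter (· < i)) (by simp)]
            apply Finset.card_le_card
            intro j hj
            rw [Finset.mem_insert, Finset.mem_filter] at hj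
            rw [Finset.mem_filter]
            rcases hj with rfl | hj
            · exact ⟨Finset.mem_filter.2 ⟨hi, hle⟩, Nat.lt_succ_self _⟩
            · exact ⟨hj.1, by omega⟩
          omega
      · rw [hUsucc' i hi]
        refine ih.trans ?_
        gcongr
        omega
  have hJ : ∀ i, Fintype.card κ ≤ Module.finrank ℚ (Cd (s - i)) + (J.filter (s - i ≤ ·)).card := by
    intro i
    induction i with
    | zero =>
      have : Cd (s - 0) = ⊤ := by
        ext c
        simp only [Submodule.mem_top, iff_true]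
        rw [mem_Cd]
        intro j hj hsj
        have := h.lt j hj
        omega
      rw [this]
      simp
    | succ i ih =>
      rcases Nat.lt_or_ge i s with his | his
      · have e : s - i = (s - (i + 1)) + 1 := by omega
        rw [e] at ih
        generalize s - (i + 1) = m at ih ⊢
        by_cases hi : m ∈ I
        · by_cases hle : Cd (m + 1) ≤ LinearMap.ker (β m)
          · rw [hCsucc m hi, inf_eq_left.2 hle]
            refine ih.trans ?_
            gcongr
            omega
          · have h1 := finrank_inf_ker (Cd (m + 1)) (β m)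
            rw [← hCsucc m hi] at h1
            have h2 : (J.filter (m + 1 ≤ ·)).card + 1 ≤ (J.filter (m ≤ ·)).card := by
              rw [← Finset.card_insert_of_notMem (a := m) (s := J.filter (m + 1 ≤ ·)) (by simp)]
              apply Finset.card_le_card
              intro j hj
              rw [Finset.mem_insert, Finset.mem_filter] at hj
              rw [Finset.mem_filter]
              rcases hj with rfl | hj
              · exact ⟨Finset.mem_filter.2 ⟨hi, hle⟩, le_rfl⟩
              · exact ⟨hj.1, by omega⟩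
            omega
        · rw [hCsucc' m hi]
          refine ih.trans ?_
          gcongr
          omega
      · have e : s - (i + 1) = s - i := by omega
        rw [e]
        exact ih
  -- witnesses
  have hx : ∀ i, ∃ x : ι → ℚ, i ∈ P → x ∈ Ud w I i ∧ g i x ≠ 0 := by
    intro i
    by_cases hi : i ∈ P
    · obtain ⟨x, hx, hx'⟩ := SetLike.not_le_iff_exists.1 (Finset.mem_filter.1 hi).2
      exact ⟨x, fun _ => ⟨hx, fun h0 => hx' (LinearMap.mem_ker.2 h0)⟩⟩
    · exact ⟨0, fun h' => absurd h' hi⟩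
  choose x hx using hx
  have hc : ∀ i, ∃ c : κ → ℚ, i ∈ J → c ∈ Cd (i + 1) ∧ β i c ≠ 0 := by
    intro i
    by_cases hi : i ∈ J
    · obtain ⟨c, hc, hc'⟩ := SetLike.not_le_iff_exists.1 (Finset.mem_filter.1 hi).2
      exact ⟨c, fun _ => ⟨hc, fun h0 => hc' (LinearMap.mem_ker.2 h0)⟩⟩
    · exact ⟨0, fun h' => absurd h' hi⟩
  choose c hc using hc
  have hQ : ∀ i, ∀ x ∈ Ud w I i, ∀ c ∈ Cd i, IsQ (Phi F x c) := by
    intro i x hx c hc
    have hz : ∑ j ∈ I, (β j c : ℂ) * ev x (w j) = 0 := by
      refine Finset.sum_eq_zero fun j hj => ?_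
      rcases Nat.lt_or_ge j i with h1 | h1
      · rw [hx j hj h1, mul_zero]
      · rw [hc j hj h1]
        simp
    rw [hPhi, hz, add_zero]
    exact isQ_cast _
  refine ⟨P ∩ J, x, c, Ud w I s, Cd 0, ?_, ?_, ?_, ?_, ?_⟩
  · intro x hx c
    apply hQ s x hx
    intro j hj hsj
    have := h.lt j hj
    omega
  · intro c hc x
    exact hQ 0 x (fun j _ hj => absurd hj (Nat.not_lt_zero j)) c hc
  · intro i hi
    rw [Finset.mem_inter] at hi
    have hiI : i ∈ I := (Finset.mem_filter.1 hi.1).1
    obtain ⟨hxU, hx0⟩ := hx i hi.1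
    obtain ⟨hcC, hc0⟩ := hc i hi.2
    rw [hPhi, Finset.sum_eq_single i]
    · rw [(hg i hiI).2 _ hxU]
      intro hq
      apply (hg i hiI).1
      have h1 := hq.sub (isQ_cast (∑ t, c i t * ∑ k, A t k * x i k))
      rw [add_sub_cancel_left] at h1
      have h2 := h1.mul (isQ_cast ((β i (c i))⁻¹ * (g i (x i))⁻¹))
      have h3 : ((β i (c i) : ℚ) : ℂ) ≠ 0 := by exact_mod_cast hc0
      have h4 : ((g i (x i) : ℚ) : ℂ) ≠ 0 := by exact_mod_cast hx0
      have e : ((β i (c i) : ℚ) : ℂ) * (lam i * ((g i (x i) : ℚ) : ℂ)) *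
          (((β i (c i))⁻¹ * (g i (x i))⁻¹ : ℚ) : ℂ) = lam i := by
        push_cast
        field_simp
      rwa [e] at h2
    · intro j hj hji
      rcases Nat.lt_or_ge j i with h1 | h1
      · rw [hxU j hj h1, mul_zero]
      · rw [hcC j hj (by omega)]
        simp
    · intro h'
      exact absurd hiI h'
  · intro i hi i' hi' hlt
    rw [Finset.mem_inter] at hi hi'
    obtain ⟨hxU, _⟩ := hx i' hi'.1
    obtain ⟨hcC, _⟩ := hc i hi.2
    refine hQ (i + 1) _ ?_ _ hcC
    intro j hj hji
    exact hxU j hj (by omega)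
  · have h1 := hP s
    have h2 := hJ s
    rw [Nat.sub_self] at h2
    have h3 : (P.filter (· < s)).card ≤ P.card := Finset.card_filter_le _ _
    have h4 : (J.filter (0 ≤ ·)).card ≤ J.card := Finset.card_filter_le _ _
    have h5 : (P ∪ J).card ≤ I.card := Finset.card_le_card
      (Finset.union_subset (Finset.filter_subset _ _) (Finset.filter_subset _ _))
    have h6 := Finset.card_union_add_card_inter P J
    omega

end Vale.Agent.P344.H890
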