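import Vale.Agent.P344.H890.AddMain
import Vale.Agent.P344.H890.Flags
import Vale.Agent.P344.H890.Chain

/-!
# Irrational scalar multiplications needed for the discrete Fourier transform
-/

set_option linter.unusedSectionVars false

namespace Vale.Agent.P344.H890

open Finset Polynomial Module

variable {n : ℕ} [NeZero n]

/-- The index of a row or a column as a residue. -/
noncomputable def ix : Fin n ≃ ZMod n where
  toFun j := ((j : ℕ) : ZMod n)
  invFun z := ⟨z.val, ZMod.val_lt z⟩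
  left_inv j := Fin.ext (ZMod.val_cast_of_lt j.2)
  right_inv z := ZMod.natCast_zmod_val z

theorem ix_apply (j : Fin n) : ix j = ((j : ℕ) : ZMod n) := rfl

theorem F_eq (t : ZMod n) (j : Fin n) : F t j = ZMod.stdAddChar (t * ix j) := by
  rw [F, ix_apply]

/-- Multiplication by the unit `u` as a permutation of the indices. -/
noncomputable def mulP (u : (ZMod n)ˣ) : Equiv.Perm (Fin n) :=
  ix.trans ((Units.mulLeft u).trans ix.symm)

theorem ix_mulP (u : (ZMod n)ˣ) (j : Fin n) : ix (mulP u j) = (u : ZMod n) * ix j := by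
  simp [mulP]

theorem zeta_prim : IsPrimitiveRoot (ZMod.stdAddChar (1 : ZMod n) : ℂ) n := by
  have h1 : (ZMod.stdAddChar (1 : ZMod n) : ℂ) ^ n = 1 := by
    rw [← AddChar.map_nsmul_eq_pow]
    simp
  rw [IsPrimitiveRoot.iff_def]
  refine ⟨h1, fun l hl => ?_⟩
  rw [← AddChar.map_nsmul_eq_pow, ← AddChar.map_zero_eq_one (ZMod.stdAddChar (N := n))] at hl
  have := ZMod.injective_stdAddChar hl
  rw [nsmul_eq_mul, mul_one] at this
  exact (ZMod.natCast_eq_zero_iff l n).1 this

theorem stdAddChar_eq_pow (m : ZMod n) :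
    (ZMod.stdAddChar m : ℂ) = (ZMod.stdAddChar (1 : ZMod n) : ℂ) ^ m.val := by
  rw [← AddChar.map_nsmul_eq_pow]
  congr 1
  simp

/-- Rational relations between the powers of a root of unity are invariant under conjugation. -/
theorem conj_rel {α : Type*} (s : Finset α) (a : α → ℚ) (m : α → ZMod n) (q : ℚ) (u : (ZMod n)ˣ)
    (h : ∑ i ∈ s, (a i : ℂ) * ZMod.stdAddChar (m i) = q) :
    ∑ i ∈ s, (a i : ℂ) * ZMod.stdAddChar ((u : ZMod n) * m i) = q := by
  set ζ : ℂ := ZMod.stdAddChar (1 : ZMod n) with hζ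
  have hprim : IsPrimitiveRoot ζ n := zeta_prim
  set P : ℚ[X] := ∑ i ∈ s, C (a i) * X ^ (m i).val - C q with hP
  have hev : ∀ z : ℂ, aeval z P = ∑ i ∈ s, (a i : ℂ) * z ^ (m i).val - q := by
    intro z
    simp [hP]
  have h0 : aeval ζ P = 0 := by
    rw [hev, sub_eq_zero, ← h]
    exact Finset.sum_congr rfl fun i _ => by rw [stdAddChar_eq_pow (m i)]
  have hdvd : cyclotomic n ℚ ∣ P := by
    rw [cyclotomic_eq_minpoly_rat hprim (NeZero.pos n)]
    exact minpoly.dvd ℚ ζ h0
  have hprim' : IsPrimitiveRoot (ζ ^ (u : ZMod n).val) n :=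
    hprim.pow_of_coprime _ (ZMod.val_coe_unit_coprime u)
  have h2 : aeval (ζ ^ (u : ZMod n).val) P = 0 := by
    obtain ⟨Q, hQ⟩ := hdvd
    rw [hQ, map_mul]
    have : aeval (ζ ^ (u : ZMod n).val) (cyclotomic n ℚ) = 0 := by
      rw [cyclotomic_eq_minpoly_rat hprim' (NeZero.pos n)]
      exact minpoly.aeval _ _
    rw [this, zero_mul]
  rw [hev, sub_eq_zero] at h2
  rw [← h2]
  apply Finset.sum_congr rfl
  intro i _
  congr 1
  rw [← pow_mul, hζ, ← AddChar.map_nsmul_eq_pow]
  congr 1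
  simp

/-- The pairing given by the Fourier matrix. -/
noncomputable def FF (k : Fin n) : Fin n → ℂ := F (ix k)

theorem Phi_FF (x c : Fin n → ℚ) :
    Phi FF x c = ∑ p : Fin n × Fin n, ((c p.1 * x p.2 : ℚ) : ℂ) *
      ZMod.stdAddChar (ix p.1 * ix p.2) := by
  rw [Fintype.sum_prod_type]
  unfold Phi ev
  apply Finset.sum_congr rfl
  intro k _
  rw [Finset.mul_sum]
  apply Finset.sum_congr rfl
  intro j _
  rw [FF, F_eq]
  push_cast
  ring

theorem Phi_FF_comm (x c : Fin n → ℚ) : Phi FF x c = Phi FF c x := by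
  rw [Phi_FF, Phi_FF]
  refine Fintype.sum_equiv (Equiv.prodComm _ _) _ _ ?_
  intro p
  simp only [Equiv.prodComm_apply, Prod.fst_swap, Prod.snd_swap]
  rw [mul_comm (ix p.1)]
  congr 2
  ring

theorem Phi_FF_perm (u : (ZMod n)ˣ) (x c : Fin n → ℚ) :
    Phi FF (permT (mulP u) x) c = ∑ p : Fin n × Fin n, ((c p.1 * x p.2 : ℚ) : ℂ) *
      ZMod.stdAddChar ((u : ZMod n) * (ix p.1 * ix p.2)) := by
  rw [Phi_FF]
  refine Fintype.sum_equiv (Equiv.prodCongr (Equiv.refl _) (mulP u).symm) _ _ ?_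
  intro p
  simp only [Equiv.prodCongr_apply, Prod.map, Equiv.refl_apply, permT_apply]
  congr 2
  have := ix_mulP u ((mulP u).symm p.2)
  rw [Equiv.apply_symm_apply] at this
  rw [this]
  ring

theorem Phi_perm_of_eq (u : (ZMod n)ˣ) (x c : Fin n → ℚ) (q : ℚ) (h : Phi FF x c = q) :
    Phi FF (permT (mulP u) x) c = q := by
  rw [Phi_FF_perm]
  rw [Phi_FF] at h
  exact conj_rel _ _ _ q u h

theorem Phi_add (F : Fin n → Fin n → ℂ) (x y c : Fin n → ℚ) :
    Phi F (x + y) c = Phi F x c + Phi F y c := by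
  simp only [Phi, ev, Pi.add_apply, Rat.cast_add, mul_add, Finset.sum_add_distrib]

theorem Phi_smul (F : Fin n → Fin n → ℂ) (a : ℚ) (x c : Fin n → ℚ) :
    Phi F (a • x) c = a * Phi F x c := by
  simp only [Phi, ev, Pi.smul_apply, smul_eq_mul, Rat.cast_mul, Finset.mul_sum]
  refine Finset.sum_congr rfl fun _ _ => Finset.sum_congr rfl fun _ _ => by ring

/-- A rational vector orthogonal to all rows vanishes. -/
theorem eq_zero_of_ev (y : Fin n → ℚ) (h : ∀ k, ev y (FF k) = 0) : y = 0 := by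
  have h1 : ZMod.dft (fun z : ZMod n => ((y (ix.symm z) : ℚ) : ℂ)) = 0 := by
    funext t
    rw [ZMod.dft_apply]
    have h2 := h (ix.symm (-t))
    rw [ev] at h2
    rw [Pi.zero_apply, ← h2]
    refine Fintype.sum_equiv ix.symm _ _ ?_
    intro z
    rw [FF, F_eq, Equiv.apply_symm_apply, Equiv.apply_symm_apply, smul_eq_mul, mul_comm z t,
      neg_mul]
  have h3 := (LinearEquiv.map_eq_zero_iff _).1 h1
  funext j
  have := congrFun h3 (ix j)
  simp only [Equiv.symm_apply_apply, Pi.zero_apply] at this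
  exact_mod_cast this

theorem Phi_single (x : Fin n → ℚ) (k : Fin n) : Phi FF x (Pi.single k 1) = ev x (FF k) := by
  rw [Phi, Finset.sum_eq_single k]
  · simp
  · intro j _ hj
    simp [hj]
  · intro h
    exact absurd (Finset.mem_univ k) h

theorem fixed_of_rat (u : (ZMod n)ˣ) (x : Fin n → ℚ) (h : ∀ c, IsQ (Phi FF x c)) :
    permT (mulP u) x = x := by
  rw [← sub_eq_zero]
  apply eq_zero_of_ev
  intro k
  obtain ⟨q, hq⟩ := h (Pi.single k 1)
  have h1 := Phi_perm_of_eq u x _ q hq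
  rw [Phi_single] at hq h1
  have : permT (mulP u) x - x = permT (mulP u) x + (-1 : ℚ) • x := by
    rw [neg_one_smul, sub_eq_add_neg]
  rw [← Phi_single, this, Phi_add, Phi_smul, Phi_single, Phi_single, hq, h1]
  push_cast
  ring

/-- `Σ (d(ℓ) + 2)` over the orbits of multiplication by `u` on `ℤ/n`, `ℓ` being the length of the
orbit. -/
noncomputable def Lam (n : ℕ) [NeZero n] (u : (ZMod n)ˣ) : ℕ :=
  ∑ q : Orb (mulP u), ((len (mulP u) q.out).divisors.card + 2)

/-- A circuit for `F_n` has at least `2n - Λ` irrational scalar multiplications. -/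
theorem card_irr {w : ℕ → Fin n → ℂ} {s : ℕ} {I : Finset ℕ} (h : QSeq w s I)
    (hF : ∀ t : ZMod n, F t ∈ Av w s) (u : (ZMod n)ˣ) : 2 * n ≤ I.card + Lam n u := by
  classical
  obtain ⟨D, x, c, Rin, Rout, h1, h2, h3, h4, h5⟩ := h.flags (FF (n := n)) (fun k => hF _)
  have hin := finrank_fixed_le (mulP u) Rin (fun x hx => fixed_of_rat u x (h1 x hx))
  have hout := finrank_fixed_le (mulP u) Rout
    (fun c hc => fixed_of_rat u c (fun x => by rw [Phi_FF_comm]; exact h2 c hc x))
  let S : ℕ → Submodule ℚ (Fin n → ℚ) := fun i =>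
    { carrier := {y | IsQ (Phi FF y (c i))}
      zero_mem' := by
        have : Phi (FF (n := n)) 0 (c i) = 0 := by simp [Phi, ev]
        rw [Set.mem_ofPred_eq, this]
        exact isQ_zero
      add_mem' := fun {a b} ha hb => by
        rw [Set.mem_ofPred_eq, Phi_add]
        exact ha.add hb
      smul_mem' := fun a b hb => by
        rw [Set.mem_ofPred_eq, Phi_smul]
        exact (isQ_cast a).mul hb }
  have hD : (D.card : ℕ∞) ≤ Module.length ℚ[X] (AEval' (permT (mulP u))) := by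
    refine chain_le (permT (mulP u)) S ?_ x D ?_ ?_
    · rintro i y ⟨q, hq⟩
      exact ⟨q, Phi_perm_of_eq u y _ q hq⟩
    · intro i hi
      exact h3 i hi
    · intro i hi i' hi' hlt
      exact h4 i hi i' hi' hlt
  have hD' := hD.trans (length_le (mulP u))
  have hD'' : D.card ≤ ∑ q : Orb (mulP u), (len (mulP u) q.out).divisors.card := by
    exact_mod_cast hD'
  have hL : Lam n u = (∑ q : Orb (mulP u), (len (mulP u) q.out).divisors.card) +
      2 * Fintype.card (Orb (mulP u)) := by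
    rw [Lam, Finset.sum_add_distrib, Finset.sum_const, Finset.card_univ, smul_eq_mul, mul_comm 2]
  rw [Fintype.card_fin] at h5
  omega

end Vale.Agent.P344.H890
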