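import Vale.Agent.P344.H890.Local
import Vale.Agent.P344.H890.IrrMain

/-!
# Chebotarev's theorem: the Fourier matrix of prime order has only nonzero minors
-/

set_option linter.unusedSectionVars false

namespace Vale.Agent.P344.H890

open Finset Polynomial

section multiplicity

variable {p : ℕ} [hp : Fact p.Prime]

theorem not_pow_dvd_C {F : Type*} [Field F] {a : F} (ha : a ≠ 0) (k : ℕ) :
    ¬ (X - C (1 : F)) ^ (k + 1) ∣ (C a : F[X]) := by
  intro h
  have h1 := natDegree_le_of_dvd h (C_ne_zero.2 ha)
  rw [natDegree_pow, natDegree_X_sub_C, natDegree_C] at h1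
  omega

/-- Over `F_p`, a polynomial of degree less than `p` with a root `1` of multiplicity `k` has more
than `k` terms. -/
theorem card_support_gt : ∀ (N : ℕ), N < p → ∀ (g : (ZMod p)[X]) (k : ℕ), g ≠ 0 →
    g.natDegree ≤ N → (X - C (1 : ZMod p)) ^ k ∣ g → k < g.support.card := by
  intro N
  induction N with
  | zero =>
    intro _ g k hg hN hk
    have hgC : g = C (g.coeff 0) := eq_C_of_natDegree_le_zero hN
    have ha : g.coeff 0 ≠ 0 := by
      intro h0
      rw [h0, C_0] at hgC
      exact hg hgC
    cases k with
    | zero => exact card_pos.2 (nonempty_support_iff.2 hg)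
    | succ k =>
      exfalso
      rw [hgC] at hk
      exact not_pow_dvd_C ha k hk
  | succ N ih =>
    intro hNp g k hg hN hk
    cases k with
    | zero => exact card_pos.2 (nonempty_support_iff.2 hg)
    | succ k =>
      by_cases h0 : g.coeff 0 = 0
      · have hX : X * g.divX = g := by
          have := divX_mul_X_add g
          rw [h0, C_0, add_zero, mul_comm] at this
          exact this
        have hd0 : g.divX ≠ 0 := by
          intro h
          rw [h, mul_zero] at hX
          exact hg hX.symm
        have hdeg : g.divX.natDegree ≤ N := by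
          rw [natDegree_divX_eq_natDegree_tsub_one]
          omega
        have hcop : IsCoprime ((X - C (1 : ZMod p)) ^ (k + 1)) (X : (ZMod p)[X]) := by
          apply IsCoprime.pow_left
          refine ⟨-1, 1, ?_⟩
          rw [C_1]
          ring
        have hdvd : (X - C (1 : ZMod p)) ^ (k + 1) ∣ g.divX := by
          rw [← hX] at hk
          exact hcop.dvd_of_dvd_mul_left hk
        have h1 := ih (by omega) g.divX (k + 1) hd0 hdeg hdvd
        have h2 : g.divX.support.card ≤ g.support.card := by
          apply card_le_card_of_injOn (fun n => n + 1)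
          · intro n hn
            rw [mem_coe, mem_support_iff, coeff_divX] at hn
            rw [mem_coe, mem_support_iff]
            exact hn
          · intro a _ b _ hab
            simpa using hab
        omega
      · have hdvd : (X - C (1 : ZMod p)) ^ k ∣ derivative g := by
          have := pow_sub_one_dvd_derivative_of_pow_dvd hk
          simpa using this
        have hg' : derivative g ≠ 0 := by
          intro hder
          have hcoef : ∀ n, 0 < n → g.coeff n = 0 := by
            intro n hn
            by_cases hnN : n ≤ N + 1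
            · have h1 := coeff_derivative g (n - 1)
              rw [hder, coeff_zero] at h1
              have h2 : n - 1 + 1 = n := by omega
              rw [h2] at h1
              have h3 : ((n - 1 : ℕ) : ZMod p) + 1 = (n : ZMod p) := by
                exact_mod_cast congrArg (fun m : ℕ => (m : ZMod p)) h2
              rw [h3] at h1
              have h4 : (n : ZMod p) ≠ 0 := by
                rw [Ne, ZMod.natCast_eq_zero_iff]
                intro h
                have := Nat.le_of_dvd hn h
                omega
              rcases mul_eq_zero.1 h1.symm with h | h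
              · exact h
              · exact absurd h h4
            · exact coeff_eq_zero_of_natDegree_lt (by omega)
          have hgC : g = C (g.coeff 0) := by
            ext n
            rw [coeff_C]
            by_cases hn : n = 0
            · rw [if_pos hn, hn]
            · rw [if_neg hn]
              exact hcoef n (by omega)
          rw [hgC] at hk
          exact not_pow_dvd_C h0 k hk
        have hdeg : (derivative g).natDegree ≤ N := by
          have := natDegree_derivative_le g
          omega
        have h1 := ih (by omega) (derivative g) k hg' hdeg hdvd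
        have h2 : (derivative g).support.card ≤ (g.support.erase 0).card := by
          apply card_le_card_of_injOn (fun n => n + 1)
          · intro n hn
            rw [mem_coe, mem_support_iff, coeff_derivative] at hn
            rw [mem_coe, mem_erase, mem_support_iff]
            exact ⟨Nat.succ_ne_zero n, left_ne_zero_of_mul hn⟩
          · intro a _ b _ hab
            simpa using hab
        have h3 : (g.support.erase 0).card < g.support.card :=
          card_erase_lt_of_mem (mem_support_iff.2 h0)
        omega

end multiplicity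

section ring

variable (p : ℕ) [hp : Fact p.Prime]

/-- The ring `ℤ[ζ]`. -/
abbrev Zz : Type := AdjoinRoot (cyclotomic p ℤ)

variable {p}

/-- `ℤ[ζ] → ℂ`. -/
noncomputable def toC {z : ℂ} (hz : IsPrimitiveRoot z p) : Zz p →+* ℂ :=
  AdjoinRoot.lift (Int.castRingHom ℂ) z (by
    rw [← eval_map, map_cyclotomic]
    exact hz.isRoot_cyclotomic hp.out.pos)

/-- `ℤ[ζ] → F_p`. -/
noncomputable def toF : Zz p →+* ZMod p :=
  AdjoinRoot.lift (Int.castRingHom (ZMod p)) 1 (by
    rw [← eval_map, map_cyclotomic, eval_one_cyclotomic_prime]
    simp)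

theorem toC_root {z : ℂ} (hz : IsPrimitiveRoot z p) : toC hz (AdjoinRoot.root _) = z :=
  AdjoinRoot.lift_root _

theorem toF_root : (toF (AdjoinRoot.root _) : ZMod p) = 1 :=
  AdjoinRoot.lift_root _

theorem toC_injective {z : ℂ} (hz : IsPrimitiveRoot z p) : Function.Injective (toC hz) := by
  rw [injective_iff_map_eq_zero]
  intro a ha
  induction a using AdjoinRoot.induction_on with
  | ih q =>
    have h1 : aeval z q = 0 := by
      have : toC hz (AdjoinRoot.mk _ q) = eval₂ (Int.castRingHom ℂ) z q := AdjoinRoot.lift_mk _ q
      rw [this] at ha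
      rw [aeval_def]
      exact ha
    rw [AdjoinRoot.mk_eq_zero, cyclotomic_eq_minpoly hz hp.out.pos]
    exact minpoly.isIntegrallyClosed_dvd (hz.isIntegral hp.out.pos) h1

theorem dvd_of_toF {a : Zz p} (ha : toF a = 0) : (AdjoinRoot.root (cyclotomic p ℤ) - 1) ∣ a := by
  have key : ∀ q : ℤ[X], ∃ b, AdjoinRoot.mk (cyclotomic p ℤ) q =
      (AdjoinRoot.root (cyclotomic p ℤ) - 1) * b + ((q.eval 1 : ℤ) : Zz p) := by
    intro q
    have h1 : (X - C (1 : ℤ)) ∣ q - C (q.eval 1) := by
      rw [dvd_iff_isRoot]
      simp
    obtain ⟨h, hh⟩ := h1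
    refine ⟨AdjoinRoot.mk _ h, ?_⟩
    have h2 : q = (X - C 1) * h + C (q.eval 1) := by rw [← hh]; ring
    conv_lhs => rw [h2]
    rw [map_add, map_mul, map_sub, AdjoinRoot.mk_X, AdjoinRoot.mk_C, AdjoinRoot.mk_C, map_one]
    simp
  induction a using AdjoinRoot.induction_on with
  | ih q =>
    obtain ⟨b, hb⟩ := key q
    have h1 : ((q.eval 1 : ℤ) : ZMod p) = 0 := by
      have h2 : (toF (AdjoinRoot.mk _ q) : ZMod p) = eval₂ (Int.castRingHom (ZMod p)) 1 q :=
        AdjoinRoot.lift_mk _ q
      rw [h2] at ha
      have h3 : eval₂ (Int.castRingHom (ZMod p)) 1 q = ((q.eval 1 : ℤ) : ZMod p) := by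
        have := hom_eval₂ q (RingHom.id ℤ) (Int.castRingHom (ZMod p)) 1
        simp only [RingHom.comp_id, map_one] at this
        rw [← this]
        rfl
      rw [← h3]
      exact ha
    rw [ZMod.intCast_zmod_eq_zero_iff_dvd] at h1
    obtain ⟨m, hm⟩ := h1
    obtain ⟨b', hb'⟩ := key (cyclotomic p ℤ)
    rw [AdjoinRoot.mk_self, eval_one_cyclotomic_prime] at hb'
    rw [hb, hm]
    refine ⟨b - b' * m, ?_⟩
    push_cast
    push_cast at hb'
    linear_combination (m : Zz p) * (-hb')

instance : Nontrivial (Zz p) := (toF : Zz p →+* ZMod p).domain_nontrivial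

theorem isDomain_Zz {z : ℂ} (hz : IsPrimitiveRoot z p) : IsDomain (Zz p) :=
  (toC_injective hz).isDomain (toC hz)

theorem root_pow_inj {z : ℂ} (hz : IsPrimitiveRoot z p) {a b : ℕ} (ha : a < p) (hb : b < p)
    (h : AdjoinRoot.root (cyclotomic p ℤ) ^ a = AdjoinRoot.root (cyclotomic p ℤ) ^ b) : a = b := by
  have h1 := congrArg (toC hz) h
  rw [map_pow, map_pow, toC_root] at h1
  exact hz.pow_inj ha hb h1

/-- The statement over `ℤ[ζ]`. -/
theorem cheb_ring {z : ℂ} (hz : IsPrimitiveRoot z p) (T J : Finset ℕ) (hT : ∀ t ∈ T, t < p)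
    (hJ : ∀ j ∈ J, j < p) (hTJ : T.card ≤ J.card) (t₀ : ℕ) (ht₀ : t₀ ∈ T) :
    ∀ (m : ℕ) (v : ℕ → Zz p), ¬ (AdjoinRoot.root (cyclotomic p ℤ) - 1) ^ m ∣ v t₀ →
      (∀ j ∈ J, ∑ t ∈ T, v t * AdjoinRoot.root (cyclotomic p ℤ) ^ (t * j) = 0) → False := by
  have := isDomain_Zz hz
  set r : Zz p := AdjoinRoot.root (cyclotomic p ℤ) with hr
  have hr1 : r - 1 ≠ 0 := by
    intro h
    have h1 := root_pow_inj hz hp.out.pos hp.out.one_lt (a := 0) (b := 1) (by
      rw [pow_zero, pow_one, ← hr]
      exact (sub_eq_zero.1 h).symm)
    omega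
  intro m
  induction m with
  | zero => intro v hv _; exact hv (by rw [pow_zero]; exact one_dvd _)
  | succ m ih =>
    intro v hv hsol
    by_cases hall : ∀ t ∈ T, (r - 1) ∣ v t
    · have hex : ∀ t, ∃ u, t ∈ T → v t = (r - 1) * u := by
        intro t
        by_cases ht : t ∈ T
        · obtain ⟨u, hu⟩ := hall t ht
          exact ⟨u, fun _ => hu⟩
        · exact ⟨0, fun h => absurd h ht⟩
      choose u hu using hex
      refine ih u ?_ ?_
      · intro hd
        apply hv
        rw [hu t₀ ht₀, pow_succ, mul_comm]
        exact mul_dvd_mul_left _ hd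
      · intro j hj
        have h1 := hsol j hj
        have h2 : ∑ t ∈ T, v t * r ^ (t * j) = (r - 1) * ∑ t ∈ T, u t * r ^ (t * j) := by
          rw [mul_sum]
          refine sum_congr rfl fun t ht => ?_
          rw [hu t ht]
          ring
        rw [h2] at h1
        exact (mul_eq_zero.1 h1).resolve_left hr1
    · push Not at hall
      obtain ⟨t₁, ht₁, hnd⟩ := hall
      set g : (Zz p)[X] := ∑ t ∈ T, C (v t) * X ^ t with hg
      set gb : (ZMod p)[X] := ∑ t ∈ T, C (toF (v t)) * X ^ t with hgb
      have hcoeff : ∀ t ∈ T, gb.coeff t = toF (v t) := by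
        intro t ht
        rw [hgb, finsetSum_coeff, sum_eq_single t]
        · simp
        · intro b _ hb
          rw [coeff_C_mul_X_pow, if_neg (Ne.symm hb)]
        · intro h
          exact absurd ht h
      have hgb0 : gb ≠ 0 := by
        intro h
        apply hnd
        apply dvd_of_toF
        rw [← hcoeff t₁ ht₁, h, coeff_zero]
      have hmap : g.map toF = gb := by
        rw [hg, hgb, Polynomial.map_sum]
        refine sum_congr rfl fun t _ => ?_
        simp
      have hg0 : g ≠ 0 := by
        intro h
        rw [h, Polynomial.map_zero] at hmap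
        exact hgb0 hmap.symm
      have hroots : ∀ j ∈ J, g.IsRoot (r ^ j) := by
        intro j hj
        rw [IsRoot.def, hg, eval_finsetSum, ← hsol j hj]
        refine sum_congr rfl fun t _ => ?_
        simp only [eval_mul, eval_C, eval_pow, eval_X]
        rw [← pow_mul, mul_comm j t]
      have hinj : Set.InjOn (fun j => r ^ j) (J : Set ℕ) := by
        intro a ha b hb hab
        exact root_pow_inj hz (hJ a ha) (hJ b hb) hab
      classical
      have hdvd : ∏ j ∈ J, (X - C (r ^ j)) ∣ g := by
        have h1 : ((J.image fun j => r ^ j).val.map fun a => X - C a).prod ∣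
            (g.roots.map fun a => X - C a).prod := by
          apply Multiset.prod_dvd_prod_of_le
          apply Multiset.map_le_map
          rw [Finset.val_le_iff_val_subset]
          intro a ha
          rw [Finset.mem_val, mem_image] at ha
          obtain ⟨j, hj, rfl⟩ := ha
          exact (mem_roots hg0).2 (hroots j hj)
        have h2 : ((J.image fun j => r ^ j).val.map fun a => X - C a).prod =
            ∏ j ∈ J, (X - C (r ^ j)) := by
          change ∏ a ∈ J.image (fun j => r ^ j), (X - C a) = _
          rw [prod_image hinj]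
        rw [← h2]
        exact h1.trans (prod_multiset_X_sub_C_dvd g)
      have hdvd2 : (X - C (1 : ZMod p)) ^ J.card ∣ gb := by
        have h1 := map_dvd (mapRingHom (toF (p := p))) hdvd
        rw [map_prod, coe_mapRingHom, hmap] at h1
        have h2 : ∏ j ∈ J, ((X - C (r ^ j) : (Zz p)[X]).map toF) = (X - C (1 : ZMod p)) ^ J.card := by
          rw [prod_congr rfl (g := fun _ => X - C (1 : ZMod p)), prod_const]
          intro j _
          rw [Polynomial.map_sub, map_X, map_C, map_pow, hr, toF_root, one_pow]
        rw [h2] at h1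
        exact h1
      have hsupp : gb.support ⊆ T := by
        intro t ht
        by_contra hnt
        rw [mem_support_iff] at ht
        apply ht
        rw [hgb, finsetSum_coeff]
        apply sum_eq_zero
        intro b hb
        rw [coeff_C_mul_X_pow, if_neg]
        rintro rfl
        exact hnt hb
      have hdeg : gb.natDegree ≤ p - 1 := by
        have h1 := hT _ (hsupp (natDegree_mem_support_of_nonzero hgb0))
        omega
      have hcard := card_support_gt (p - 1) (by have := hp.out.pos; omega) gb J.card hgb0 hdeg hdvd2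
      have := card_le_card hsupp
      omega

end ring

/-- Chebotarev's theorem on roots of unity: for a prime `p`, every square submatrix of `F_p` is
invertible. -/
theorem chebotarev {p : ℕ} [hp : Fact p.Prime] : Reg (fun (t : ZMod p) (j : Fin p) => F t j) := by
  classical
  intro T J c hTJ hsum t₁ ht₁
  by_contra hne
  have hz := zeta_prim (n := p)
  have := isDomain_Zz hz
  obtain ⟨J', hJJ', hJ'⟩ := exists_subset_card_eq hTJ
  let e : T ≃ J' := Finset.equivOfCardEq hJ'.symm
  set r : Zz p := AdjoinRoot.root (cyclotomic p ℤ) with hr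
  let M : Matrix T T (Zz p) := fun a b => r ^ ((b : ZMod p).val * ((e a : Fin p) : ℕ))
  have hF : ∀ a b : T, toC hz (M a b) = F (b : ZMod p) (e a : Fin p) := by
    intro a b
    simp only [M]
    rw [map_pow, hr, toC_root, F, ← AddChar.map_nsmul_eq_pow]
    congr 1
    rw [nsmul_eq_mul, mul_one, Nat.cast_mul, ZMod.natCast_zmod_val]
  have hdetC : (M.map (toC hz)).det = 0 := by
    apply Matrix.exists_mulVec_eq_zero_iff.1
    refine ⟨fun b => c b, ?_, ?_⟩
    · intro h
      exact hne (congrFun h ⟨t₁, ht₁⟩)
    · funext a
      have h1 := hsum (e a : Fin p) (hJJ' (e a).2)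
      rw [Pi.zero_apply, ← h1, ← sum_coe_sort T, Matrix.mulVec, dotProduct]
      refine sum_congr rfl fun b _ => ?_
      rw [Matrix.map_apply, hF]
      ring
  have hdet : M.det = 0 := by
    apply toC_injective hz
    rw [map_zero, ← hdetC, RingHom.map_det]
    rfl
  obtain ⟨v, hv0, hv⟩ := Matrix.exists_mulVec_eq_zero_iff.2 hdet
  obtain ⟨t₀, ht₀⟩ := Function.ne_iff.1 hv0
  have hnu : ¬ IsUnit (r - 1) := by
    intro h
    have h1 := h.map (toF (p := p))
    rw [map_sub, map_one, hr, toF_root, sub_self] at h1
    exact not_isUnit_zero h1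
  obtain ⟨m, hm⟩ := FiniteMultiplicity.of_not_isUnit hnu ht₀
  have hcast : ∀ t : ZMod p, ((t.val : ℕ) : ZMod p) = t := fun t => ZMod.natCast_zmod_val t
  refine cheb_ring hz (T.image ZMod.val) (J'.image Fin.val) ?_ ?_ ?_ (t₀ : ZMod p).val ?_ (m + 1)
    (fun n => if h : (n : ZMod p) ∈ T then v ⟨n, h⟩ else 0) ?_ ?_
  · intro t ht
    rw [mem_image] at ht
    obtain ⟨a, _, rfl⟩ := ht
    exact ZMod.val_lt a
  · intro t ht
    rw [mem_image] at ht
    obtain ⟨a, _, rfl⟩ := ht
    exact a.2
  · rw [card_image_of_injective _ (ZMod.val_injective p),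
      card_image_of_injective _ Fin.val_injective, hJ']
  · exact mem_image_of_mem _ t₀.2
  · have h1 : (if h : ((t₀ : ZMod p).val : ZMod p) ∈ T then v ⟨_, h⟩ else 0) = v t₀ := by
      simp
    rw [h1]
    exact hm
  · intro j hj
    rw [mem_image] at hj
    obtain ⟨k, hk, rfl⟩ := hj
    have h1 := congrFun hv (e.symm ⟨k, hk⟩)
    rw [Pi.zero_apply, Matrix.mulVec, dotProduct] at h1
    rw [← h1, sum_image (fun a _ b _ h => ZMod.val_injective p h), ← sum_coe_sort T]
    refine sum_congr rfl fun b _ => ?_
    simp only [M, hcast, Equiv.apply_symm_apply]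
    rw [dif_pos b.2, mul_comm]

end Vale.Agent.P344.H890
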