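import Vale.Agent.P344.H890.Sparse
import Vale.Agent.P344.H890.Cheb
import Vale.Agent.P344.H890.Bridge

/-!
# Matrices all of whose minors are nonzero need `4n - o(n)` additions
-/

set_option linter.unusedSectionVars false

namespace Vale.Agent.P344.H890

open Finset Filter Topology

/-- A circuit gives a sequence of forms. -/
theorem exists_seq_gen {ι κ : Type} [Fintype ι] [DecidableEq ι] [Fintype κ]
    (C : Circuit ι κ) (A : Matrix κ ι ℂ) (hC : C.Comp A) :
    ∃ (w : ℕ → ι → ℂ) (s : ℕ), IsSeq w s ∧ (∀ t, A t ∈ Av w s) ∧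
      (R w s univ).card ≤ C.adds.card := by
  classical
  obtain ⟨f, hf, hout⟩ := hC
  obtain ⟨s, e, he⟩ := exists_enum C
  have hinj : Function.Injective fun g => ((e.symm g : Fin s) : ℕ) :=
    fun a b hab => e.symm.injective (Fin.ext hab)
  set w : ℕ → ι → ℂ := fun i => if h : i < s then f (e ⟨i, h⟩) else 0 with hw
  have hwi : ∀ g : C.G, w (e.symm g : ℕ) = f g := by
    intro g
    simp [hw]
  have hwe : ∀ (i : ℕ) (h : i < s), w i = f (e ⟨i, h⟩) := by
    intro i h
    simp [hw, h]
  have hav : ∀ (i : ℕ) (h : i < s) (a : Option ι ⊕ C.G), a ∈ (C.gate (e ⟨i, h⟩)).args →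
      C.cell f a ∈ Av w i := by
    intro i h a ha
    rcases a with (_ | j) | g
    · exact Av_zero _ _
    · exact Av_single _ _ _
    · have h1 := C.depth_lt _ _ ha
      have h2 : e.symm g < ⟨i, h⟩ := by
        apply he
        rwa [Equiv.apply_symm_apply]
      have h3 : w (e.symm g : ℕ) ∈ Av w i := Av_gate w h2
      rw [hwi] at h3
      exact h3
  have hend : ∀ a : Option ι ⊕ C.G, C.cell f a ∈ Av w s := by
    intro a
    rcases a with (_ | j) | g
    · exact Av_zero _ _
    · exact Av_single _ _ _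
    · have h3 : w (e.symm g : ℕ) ∈ Av w s := Av_gate w (e.symm g).2
      rw [hwi] at h3
      exact h3
  refine ⟨w, s, ?_, ?_, ?_⟩
  · intro i h
    have h1 := hf (e ⟨i, h⟩)
    have h2 := hav i h
    rw [hwe i h]
    cases hg : C.gate (e ⟨i, h⟩) with
    | add p q =>
      rw [hg] at h1 h2
      refine ⟨_, h2 p (by simp [Gate.args]), _, h2 q (by simp [Gate.args]), 1, 1, ?_⟩
      rw [h1, Gate.eval, one_smul, one_smul]
    | sub p q =>
      rw [hg] at h1 h2
      refine ⟨_, h2 p (by simp [Gate.args]), _, h2 q (by simp [Gate.args]), 1, -1, ?_⟩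
      rw [h1, Gate.eval, one_smul, neg_one_smul, sub_eq_add_neg]
    | smul c p =>
      rw [hg] at h1 h2
      refine ⟨_, h2 p (by simp [Gate.args]), 0, Av_zero _ _, c, 0, ?_⟩
      rw [h1, Gate.eval, smul_zero, add_zero]
  · intro t
    have h1 := hend (C.out t)
    have h2 : C.cell f (C.out t) = A t := by
      funext k
      rw [hout]
    rw [h2] at h1
    exact h1
  · have hsub : R w s univ ⊆ C.adds.image fun g => ((e.symm g : Fin s) : ℕ) := by
      intro i hi
      rw [mem_R] at hi
      obtain ⟨h, hred⟩ := hi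
      have h1 := hf (e ⟨i, h⟩)
      have h2 := hav i h
      simp only [Finset.mem_image]
      refine ⟨e ⟨i, h⟩, ?_, by simp⟩
      simp only [Circuit.adds, Finset.mem_filter, Finset.mem_univ, true_and]
      cases hg : C.gate (e ⟨i, h⟩) with
      | add p q => trivial
      | sub p q => trivial
      | smul c p =>
        exfalso
        rw [hg] at h1 h2
        apply hred
        refine ⟨_, h2 p (by simp [Gate.args]), c, ?_⟩
        rw [hwe i h, h1, Gate.eval, res_smul]
    calc (R w s univ).card ≤ _ := Finset.card_le_card hsub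
      _ = C.adds.card := Finset.card_image_of_injective _ hinj

/-- All square submatrices (rows `r 0, …`, columns `c 0, …`) are nonsingular. -/
def Superregular {n : ℕ} (A : Matrix (Fin n) (Fin n) ℂ) : Prop :=
  ∀ (k : ℕ) (r c : Fin k → Fin n), Function.Injective r → Function.Injective c →
    (A.submatrix r c).det ≠ 0

theorem Superregular.reg {n : ℕ} {A : Matrix (Fin n) (Fin n) ℂ} (h : Superregular A) : Reg A := by
  classical
  intro T J c hTJ hsum t₁ ht₁
  by_contra hne
  obtain ⟨J', hJJ', hJ'⟩ := exists_subset_card_eq hTJ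
  let e : Fin T.card ≃ T := T.equivFin.symm
  let e' : Fin T.card ≃ J' := (finCongr hJ'.symm).trans J'.equivFin.symm
  apply h T.card (fun i => (e i : Fin n)) (fun i => (e' i : Fin n))
    (Subtype.val_injective.comp e.injective) (Subtype.val_injective.comp e'.injective)
  apply Matrix.exists_vecMul_eq_zero_iff.1
  refine ⟨fun i => c (e i), ?_, ?_⟩
  · intro h0
    have := congrFun h0 (e.symm ⟨t₁, ht₁⟩)
    simp only [Equiv.apply_symm_apply, Pi.zero_apply] at this
    exact hne this
  · funext a
    have h1 := hsum (e' a : Fin n) (hJJ' (e' a).2)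
    rw [Pi.zero_apply, ← h1, ← sum_coe_sort T, Matrix.vecMul, dotProduct]
    exact Equiv.sum_comp e (fun b : T => c b * A b (e' a : Fin n))

/-- **Additions for matrices with nonzero minors**, explicit form. -/
theorem adds_superregular {n : ℕ} {A : Matrix (Fin n) (Fin n) ℂ} (hA : Reg A)
    (C : Circuit (Fin n) (Fin n)) (hC : C.Comp A) (r : ℕ) (c : ℝ) (hc : 0 < c)
    (hr : (n : ℝ) ≤ (1 + c) ^ r) :
    3 * (n : ℝ) + n / (1 + c) - (40 * r + 22) ≤ C.adds.card := by
  obtain ⟨w, s, hw, hF, hR⟩ := exists_seq_gen C A hC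
  have hR' : ((R w s univ).card : ℝ) ≤ C.adds.card := by exact_mod_cast hR
  by_cases hn : 20 * r + 10 ≤ n
  · have := reg_bound hw hA (by rw [Fintype.card_fin]; omega) hF hc
      (by rw [Fintype.card_fin]; exact hr) (by rw [Fintype.card_fin]; exact hn)
    rw [Fintype.card_fin] at this
    linarith
  · push Not at hn
    by_cases hn1 : n ≤ 1
    · have h1 : (n : ℝ) ≤ 1 := by exact_mod_cast hn1
      have h2 : (n : ℝ) / (1 + c) ≤ n := by
        apply div_le_self (by positivity) (by linarith)
      have h3 : (0 : ℝ) ≤ C.adds.card := by positivity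
      have h4 : (0 : ℝ) ≤ r := by positivity
      linarith
    · -- eliminate all inputs but one
      obtain ⟨K, -, hKc, hK2⟩ := eliminate hw hA (by rw [Fintype.card_fin]; omega) hF
        (le_refl 1) (n - 1) univ (by rw [card_univ, Fintype.card_fin]; omega)
      have h1 : (2 * (n - 1 : ℕ) : ℝ) ≤ (R w s univ).card := by
        have : 2 * (n - 1) ≤ (R w s univ).card := by omega
        exact_mod_cast this
      rw [Nat.cast_sub (by omega)] at h1
      have h2 : (n : ℝ) / (1 + c) ≤ n := by
        apply div_le_self (by positivity) (by linarith)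
      have h3 : (n : ℝ) ≤ 20 * r + 10 := by exact_mod_cast hn.le
      push_cast at h1
      linarith

theorem log_small (c δ : ℝ) (hc : 0 < c) (hδ : 0 < δ) :
    ∀ᶠ n : ℕ in atTop, ∃ r : ℕ, (n : ℝ) ≤ (1 + c) ^ r ∧ (40 * r + 22 : ℝ) ≤ δ * n := by
  have hl : 0 < Real.log (1 + c) := Real.log_pos (by linarith)
  have h1 := (Real.isLittleO_log_id_atTop).bound
    (c := δ * Real.log (1 + c) / 80) (by positivity)
  have h2 := (h1.and (eventually_ge_atTop (1 : ℝ))).and (eventually_ge_atTop (124 / δ))
  have h4 := tendsto_natCast_atTop_atTop (R := ℝ) |>.eventually h2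
  filter_upwards [h4] with n hn
  obtain ⟨⟨e1, e2⟩, e3⟩ := hn
  have hlog : 0 ≤ Real.log (n : ℝ) := Real.log_nonneg e2
  rw [Real.norm_of_nonneg hlog, id, Real.norm_of_nonneg (by linarith)] at e1
  refine ⟨⌈Real.log n / Real.log (1 + c)⌉₊, ?_, ?_⟩
  · have h5 := Nat.le_ceil (Real.log n / Real.log (1 + c))
    rw [div_le_iff₀ hl, ← Real.log_pow] at h5
    exact (Real.log_le_log_iff (by linarith) (by positivity)).1 h5
  · have h5 := (Nat.ceil_lt_add_one (div_nonneg hlog hl.le)).le
    have h6 : Real.log n / Real.log (1 + c) ≤ δ / 80 * n := by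
      rw [div_le_iff₀ hl]
      calc Real.log (n : ℝ) ≤ δ * Real.log (1 + c) / 80 * n := e1
        _ = _ := by ring
    have h7 : 124 ≤ δ * n := by
      rw [div_le_iff₀ hδ] at e3
      linarith
    linarith

/-- **Additions for matrices with nonzero minors**, asymptotic form. -/
theorem adds_superregular_asymp (δ : ℝ) (hδ : 0 < δ) :
    ∀ᶠ n : ℕ in atTop, ∀ A : Matrix (Fin n) (Fin n) ℂ, Reg A →
      ∀ C : Circuit (Fin n) (Fin n), C.Comp A → (4 - δ) * n ≤ C.adds.card := by
  have hc : 0 < δ / 2 := by positivity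
  filter_upwards [log_small (δ / 2) (δ / 2) hc hc] with n hn A hA C hC
  obtain ⟨r, hr, hr2⟩ := hn
  have h1 := adds_superregular hA C hC r (δ / 2) hc hr
  have h2 : (n : ℝ) - δ / 2 * n ≤ n / (1 + δ / 2) := by
    rw [le_div_iff₀ (by linarith)]
    have : (0 : ℝ) ≤ n := by positivity
    nlinarith [mul_nonneg this (sq_nonneg (δ / 2))]
  linarith

/-- The Fourier matrix of prime order. -/
theorem dftMat_reg {p : ℕ} (hp : p.Prime) : Reg (dftMat p) := by
  have : Fact p.Prime := ⟨hp⟩
  classical
  intro T J c hTJ hsum t ht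
  have h1 := chebotarev (p := p) (T.image ix) J (fun z => c (ix.symm z))
    (by rw [card_image_of_injective _ ix.injective]; exact hTJ) (by
      intro j hj
      rw [sum_image (fun a _ b _ h => ix.injective h), ← hsum j hj]
      refine sum_congr rfl fun a _ => ?_
      rw [dftMat_eq, Equiv.symm_apply_apply]) (ix t) (mem_image_of_mem _ ht)
  simpa using h1

theorem Superregular.of_reg {n : ℕ} {A : Matrix (Fin n) (Fin n) ℂ} (hA : Reg A) :
    Superregular A := by
  classical
  intro k r c hr hc hdet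
  obtain ⟨v, hv0, hv⟩ := Matrix.exists_vecMul_eq_zero_iff.2 hdet
  obtain ⟨i₀, hi₀⟩ := Function.ne_iff.1 hv0
  have h1 := hA (univ.image r) (univ.image c)
    (fun t => if h : ∃ i, r i = t then v h.choose else 0)
    (by rw [card_image_of_injective _ hr, card_image_of_injective _ hc]) (by
      intro j hj
      rw [mem_image] at hj
      obtain ⟨a, _, rfl⟩ := hj
      have h2 := congrFun hv a
      rw [Matrix.vecMul, dotProduct, Pi.zero_apply] at h2
      rw [← h2, sum_image (fun a _ b _ h => hr h)]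
      refine sum_congr rfl fun i _ => ?_
      have h3 : ∃ i', r i' = r i := ⟨i, rfl⟩
      rw [dif_pos h3, hr h3.choose_spec, Matrix.submatrix_apply]) (r i₀)
      (mem_image_of_mem _ (mem_univ _))
  have h3 : ∃ i', r i' = r i₀ := ⟨i₀, rfl⟩
  rw [dif_pos h3, hr h3.choose_spec] at h1
  exact hi₀ h1

theorem dftMat_superregular {p : ℕ} (hp : p.Prime) : Superregular (dftMat p) :=
  Superregular.of_reg (dftMat_reg hp)

theorem adds_prime {p : ℕ} (hp : p.Prime) (C : Circuit (Fin p) (Fin p)) (hC : C.Comp (dftMat p))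
    (r : ℕ) (c : ℝ) (hc : 0 < c) (hr : (p : ℝ) ≤ (1 + c) ^ r) :
    3 * (p : ℝ) + p / (1 + c) - (40 * r + 22) ≤ C.adds.card :=
  adds_superregular (dftMat_reg hp) C hC r c hc hr

theorem adds_prime_asymp (δ : ℝ) (hδ : 0 < δ) :
    ∀ᶠ p : ℕ in atTop, p.Prime → ∀ C : Circuit (Fin p) (Fin p), C.Comp (dftMat p) →
      (4 - δ) * p ≤ C.adds.card := by
  filter_upwards [adds_superregular_asymp δ hδ] with p hp hpp C hC
  exact hp _ (dftMat_reg hpp) C hC

end Vale.Agent.P344.H890
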