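import Mathlib

/-!
# Graphs without small dense subgraphs have few edges

Edges are given by sets `E t` of at most two vertices.  If any `S`, a set of at most `σ` edges,
touches at least `|S|` vertices, then the number of edges is at most `(1 + c)` times the number of
vertices, as soon as `(1 + c) ^ r` exceeds the number of vertices and `4 r + 2 ≤ σ`.
-/

namespace Vale.Agent.P344.H890

open Finset

set_option linter.unusedSectionVars false

variable {τ : Type*} [Fintype τ] [DecidableEq τ] {β : Type*} [DecidableEq β]

/-- The edges inside `U` that meet `A`. -/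
def touch (E : τ → Finset β) (U A : Finset β) : Finset τ :=
  univ.filter fun t => E t ⊆ U ∧ ¬ Disjoint (E t) A

/-- The ball of radius `i` around `v` in `U`. -/
def ball (E : τ → Finset β) (U : Finset β) (v : β) : ℕ → Finset β
  | 0 => {v}
  | i + 1 => ball E U v i ∪ (touch E U (ball E U v i)).biUnion E

theorem ball_mono (E : τ → Finset β) (U : Finset β) (v : β) (i : ℕ) :
    ball E U v i ⊆ ball E U v (i + 1) := subset_union_left

theorem mem_ball (E : τ → Finset β) (U : Finset β) (v : β) (i : ℕ) : v ∈ ball E U v i := by
  induction i with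
  | zero => simp [ball]
  | succ i ih => exact ball_mono E U v i ih

theorem ball_sub (E : τ → Finset β) {U : Finset β} {v : β} (hv : v ∈ U) (i : ℕ) :
    ball E U v i ⊆ U := by
  induction i with
  | zero => simpa [ball] using hv
  | succ i ih =>
    refine union_subset ih ?_
    intro x hx
    rw [mem_biUnion] at hx
    obtain ⟨t, ht, hxt⟩ := hx
    rw [touch, mem_filter] at ht
    exact ht.2.1 hxt

theorem touch_sub_ball (E : τ → Finset β) (U : Finset β) (v : β) (i : ℕ) {t : τ}
    (ht : t ∈ touch E U (ball E U v i)) : E t ⊆ ball E U v (i + 1) := by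
  intro x hx
  exact mem_union_right _ (mem_biUnion.2 ⟨t, ht, hx⟩)

/-- A spanning tree of the ball, and the way to enlarge connected sets with it. -/
theorem exists_tree [Nonempty τ] (E : τ → Finset β) (h2 : ∀ t, (E t).card ≤ 2) (U : Finset β) (v : β)
    (i : ℕ) : ∃ T : Finset τ, (∀ t ∈ T, E t ⊆ ball E U v i) ∧ T.card + 1 ≤ (ball E U v i).card ∧
      ∀ x ∈ ball E U v i, ∀ (C : Finset β) (S : Finset τ), v ∈ C → S.biUnion E ⊆ C →
        ∃ (C' : Finset β) (S' : Finset τ), C ⊆ C' ∧ S ⊆ S' ∧ x ∈ C' ∧ S'.biUnion E ⊆ C' ∧
          S' ⊆ S ∪ T ∧ C'.card ≤ C.card + i ∧ S.card + C'.card ≤ S'.card + C.card := by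
  classical
  induction i with
  | zero =>
    refine ⟨∅, by simp, by simp [ball], ?_⟩
    intro x hx C S hv hS
    rw [ball, mem_singleton] at hx
    subst hx
    exact ⟨C, S, Subset.refl _, Subset.refl _, hv, hS, by simp, by simp, le_rfl⟩
  | succ i ih =>
    obtain ⟨T, hT, hTc, hext⟩ := ih
    set B := ball E U v i with hB
    set B' := ball E U v (i + 1) with hB'
    have hBB' : B ⊆ B' := ball_mono E U v i
    have hpi : ∀ x, ∃ t, x ∈ B' \ B → t ∈ touch E U B ∧ x ∈ E t := by
      intro x
      by_cases hx : x ∈ B' \ B
      · have h1 := (mem_sdiff.1 hx).1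
        have h2 := (mem_sdiff.1 hx).2
        rw [hB', ball, mem_union] at h1
        rcases h1 with h1 | h1
        · exact absurd h1 h2
        · rw [mem_biUnion] at h1
          obtain ⟨t, ht, hxt⟩ := h1
          exact ⟨t, fun _ => ⟨ht, hxt⟩⟩
      · exact ⟨Classical.arbitrary τ, fun h => absurd h hx⟩
    choose π hπ using hpi
    refine ⟨T ∪ (B' \ B).image π, ?_, ?_, ?_⟩
    · intro t ht
      rw [mem_union] at ht
      rcases ht with ht | ht
      · exact (hT t ht).trans hBB'
      · rw [mem_image] at ht
        obtain ⟨x, hx, rfl⟩ := ht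
        exact touch_sub_ball E U v i (hπ x hx).1
    · have h1 : (T ∪ (B' \ B).image π).card ≤ T.card + (B' \ B).card :=
        (card_union_le _ _).trans (Nat.add_le_add_left card_image_le _)
      have h3 : (B' \ B).card + B.card = B'.card := card_sdiff_add_card_eq_card hBB'
      omega
    · intro x hx C S hv hS
      by_cases hxB : x ∈ B
      · obtain ⟨C', S', h1, h3, h4, h5, h6, h7, h8⟩ := hext x hxB C S hv hS
        refine ⟨C', S', h1, h3, h4, h5, h6.trans ?_, by omega, h8⟩
        exact union_subset_union_right subset_union_left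
      · have hx' : x ∈ B' \ B := mem_sdiff.2 ⟨hx, hxB⟩
        obtain ⟨ht, hxt⟩ := hπ x hx'
        rw [touch, mem_filter, not_disjoint_iff] at ht
        obtain ⟨_, _, y, hyt, hyB⟩ := ht
        obtain ⟨C1, S1, h1, h3, h4, h5, h6, h7, h8⟩ := hext y hyB C S hv hS
        have hmem : π x ∈ T ∪ (B' \ B).image π :=
          mem_union_right _ (mem_image_of_mem π hx')
        by_cases hxC : x ∈ C1
        · refine ⟨C1, S1, h1, h3, hxC, h5, h6.trans ?_, by omega, h8⟩
          exact union_subset_union_right subset_union_left
        · have hEt : E (π x) = {x, y} := by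
            have hxy : x ≠ y := fun e => hxB (e ▸ hyB)
            symm
            apply eq_of_subset_of_card_le
            · intro z hz
              rw [mem_insert, mem_singleton] at hz
              rcases hz with rfl | rfl <;> assumption
            · rw [card_pair hxy]
              exact h2 _
          have hnot : π x ∉ S1 := by
            intro hmem'
            exact hxC (h5 (mem_biUnion.2 ⟨_, hmem', hxt⟩))
          refine ⟨insert x C1, insert (π x) S1, h1.trans (subset_insert _ _),
            h3.trans (subset_insert _ _), mem_insert_self _ _, ?_, ?_, ?_, ?_⟩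
          · rw [biUnion_insert, hEt]
            refine union_subset ?_ (h5.trans (subset_insert _ _))
            intro z hz
            rw [mem_insert, mem_singleton] at hz
            rcases hz with rfl | rfl
            · exact mem_insert_self _ _
            · exact mem_insert_of_mem h4
          · intro z hz
            rw [mem_insert] at hz
            rcases hz with rfl | hz
            · exact mem_union_right _ hmem
            · have := h6 hz
              rw [mem_union] at this ⊢
              rcases this with h | h
              · exact Or.inl h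
              · exact Or.inr (mem_union_left _ h)
          · rw [card_insert_of_notMem hxC]; omega
          · rw [card_insert_of_notMem hxC, card_insert_of_notMem hnot]; omega

/-- Small balls contain at most as many edges as vertices. -/
theorem edges_ball_le [Nonempty τ] (E : τ → Finset β) (h2 : ∀ t, (E t).card ≤ 2) {σ : ℕ}
    (hsp : ∀ S : Finset τ, S.card ≤ σ → S.card ≤ (S.biUnion E).card) (U : Finset β) (v : β)
    (i : ℕ) (hi : 4 * i + 2 ≤ σ) :
    (univ.filter fun t => E t ⊆ ball E U v i).card ≤ (ball E U v i).card := by
  classical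
  obtain ⟨T, hT, hTc, hext⟩ := exists_tree E h2 U v i
  set B := ball E U v i with hB
  by_contra hcon
  push Not at hcon
  set 𝓔 := univ.filter fun t => E t ⊆ B with h𝓔
  have hTE : T ⊆ 𝓔 := fun t ht => by
    rw [h𝓔, mem_filter]
    exact ⟨mem_univ _, hT t ht⟩
  have h3 : 1 < (𝓔 \ T).card := by
    have := card_sdiff_add_card_eq_card hTE
    omega
  obtain ⟨t1, ht1, t2, ht2, hne⟩ := one_lt_card.1 h3
  rw [mem_sdiff, h𝓔, mem_filter] at ht1 ht2
  have key : ∀ Q : Finset β, Q ⊆ B → ∃ (C : Finset β) (S : Finset τ), v ∈ C ∧ Q ⊆ C ∧ S ⊆ T ∧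
      S.biUnion E ⊆ C ∧ C.card ≤ 1 + i * Q.card ∧ C.card ≤ S.card + 1 := by
    intro Q
    induction Q using Finset.induction_on with
    | empty =>
      intro _
      exact ⟨{v}, ∅, by simp, by simp, by simp, by simp, by simp, by simp⟩
    | insert x Q hx ih =>
      intro hQ
      obtain ⟨C, S, h1, h4, h5, h6, h7, h8⟩ := ih ((subset_insert _ _).trans hQ)
      obtain ⟨C', S', g1, g2, g3, g4, g5, g6, g7⟩ := hext x (hQ (mem_insert_self _ _)) C S h1 h6
      refine ⟨C', S', g1 h1, ?_, ?_, g4, ?_, by omega⟩
      · intro z hz
        rw [mem_insert] at hz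
        rcases hz with rfl | hz
        · exact g3
        · exact g1 (h4 hz)
      · intro z hz
        have := g5 hz
        rw [mem_union] at this
        rcases this with h | h
        · exact h5 h
        · exact h
      · rw [card_insert_of_notMem hx, Nat.mul_add, Nat.mul_one]
        omega
  obtain ⟨C, S, h1, h4, h5, h6, h7, h8⟩ := key (E t1 ∪ E t2) (union_subset ht1.1.2 ht2.1.2)
  have hQ : (E t1 ∪ E t2).card ≤ 4 := (card_union_le _ _).trans (by
    have := h2 t1
    have := h2 t2
    omega)
  have hC : C.card ≤ 1 + 4 * i := by
    calc C.card ≤ 1 + i * (E t1 ∪ E t2).card := h7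
      _ ≤ 1 + i * 4 := by gcongr
      _ = 1 + 4 * i := by ring
  set S' := insert t1 (insert t2 S) with hS'
  have hS'c : S'.card = S.card + 2 := by
    rw [hS', card_insert_of_notMem, card_insert_of_notMem]
    · exact fun h => ht2.2 (h5 h)
    · rw [mem_insert]
      rintro (h | h)
      · exact hne h
      · exact ht1.2 (h5 h)
  have hS'E : S'.biUnion E ⊆ C := by
    rw [hS', biUnion_insert, biUnion_insert]
    exact union_subset (subset_union_left.trans h4)
      (union_subset (subset_union_right.trans h4) h6)
  obtain ⟨S0, hS0, hS0c⟩ := exists_subset_card_eq (s := S') (n := C.card + 1) (by omega)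
  have h9 := hsp S0 (by omega)
  have h10 : (S0.biUnion E).card ≤ C.card :=
    card_le_card ((biUnion_subset_biUnion_of_subset_left E hS0).trans hS'E)
  omega

/-- **Sparse graphs.** -/
theorem sparse_graph (E : τ → Finset β) (W : Finset β) (hW : ∀ t, E t ⊆ W)
    (h2 : ∀ t, (E t).card ≤ 2) {σ r : ℕ} (hσ : 4 * r + 2 ≤ σ)
    (hsp : ∀ S : Finset τ, S.card ≤ σ → S.card ≤ (S.biUnion E).card) {c : ℝ} (hc : 0 < c)
    (hr : (W.card : ℝ) < (1 + c) ^ r) : (Fintype.card τ : ℝ) ≤ (1 + c) * W.card := by
  classical
  by_contra hcon
  push Not at hcon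
  have hne : Nonempty τ := by
    by_contra h
    rw [not_nonempty_iff] at h
    rw [Fintype.card_eq_zero] at hcon
    have : (0 : ℝ) ≤ (1 + c) * W.card := by positivity
    simp at hcon
    linarith
  have hE0 : ∀ t, (E t).Nonempty := by
    intro t
    have := hsp {t} (by simp; omega)
    rw [singleton_biUnion, card_singleton] at this
    exact card_pos.1 this
  set e : Finset β → ℕ := fun U => (univ.filter fun t => E t ⊆ U).card with he
  set φ : Finset β → ℝ := fun U => e U - (1 + c) * U.card with hφ
  obtain ⟨U, hUW, hmax⟩ := exists_max_image W.powerset φ ⟨W, mem_powerset_self W⟩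
  rw [mem_powerset] at hUW
  have hφW : 0 < φ W := by
    have : e W = Fintype.card τ := by
      simp only [he]
      rw [filter_true_of_mem (fun t _ => hW t), card_univ]
    simp only [hφ]
    rw [this]
    linarith
  have hφU : 0 < φ U := hφW.trans_le (hmax W (mem_powerset_self W))
  have hUne : U.Nonempty := by
    rw [nonempty_iff_ne_empty]
    rintro rfl
    have h0 : e ∅ = 0 := by
      simp only [he, card_eq_zero, filter_eq_empty_iff, subset_empty]
      intro t _ ht
      exact (hE0 t).ne_empty ht
    simp only [hφ, h0] at hφU
    simp at hφU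
  obtain ⟨v, hv⟩ := hUne
  have htouch : ∀ A ⊆ U, (1 + c) * (A.card : ℝ) ≤ (touch E U A).card := by
    intro A hA
    have h1 := hmax (U \ A) (mem_powerset.2 (sdiff_subset.trans hUW))
    have h3 : (e U : ℝ) ≤ e (U \ A) + (touch E U A).card := by
      have : e U ≤ e (U \ A) + (touch E U A).card := by
        simp only [he]
        rw [← card_union_of_disjoint]
        · apply card_le_card
          intro t ht
          rw [mem_filter] at ht
          rw [mem_union, touch, mem_filter, mem_filter]
          by_cases hd : Disjoint (E t) A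
          · exact Or.inl ⟨mem_univ _, subset_sdiff.2 ⟨ht.2, hd⟩⟩
          · exact Or.inr ⟨mem_univ _, ht.2, hd⟩
        · rw [disjoint_left]
          intro t ht ht'
          rw [mem_filter, subset_sdiff] at ht
          rw [touch, mem_filter] at ht'
          exact ht'.2.2 ht.2.2
      exact_mod_cast this
    have h4 : ((U \ A).card : ℝ) = U.card - A.card := by
      have := card_sdiff_add_card_eq_card hA
      rw [← this]
      push_cast
      ring
    simp only [hφ, h4] at h1
    linarith
  have hgrow : ∀ i ≤ r, (1 + c) ^ i ≤ ((ball E U v i).card : ℝ) := by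
    intro i
    induction i with
    | zero => intro _; simp [ball]
    | succ i ih =>
      intro hi
      have h1 := ih (by omega)
      have h3 := htouch (ball E U v i) (ball_sub E hv i)
      have h4 : ((touch E U (ball E U v i)).card : ℝ) ≤ (ball E U v (i + 1)).card := by
        have h5 := edges_ball_le E h2 hsp U v (i + 1) (by omega)
        have h6 : (touch E U (ball E U v i)).card ≤
            (univ.filter fun t => E t ⊆ ball E U v (i + 1)).card := by
          apply card_le_card
          intro t ht
          rw [mem_filter]
          exact ⟨mem_univ _, touch_sub_ball E U v i ht⟩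
        exact_mod_cast h6.trans h5
      calc (1 + c) ^ (i + 1) = (1 + c) * (1 + c) ^ i := by ring
        _ ≤ (1 + c) * (ball E U v i).card := by gcongr
        _ ≤ _ := h3.trans h4
  have h1 := hgrow r le_rfl
  have h3 : ((ball E U v r).card : ℝ) ≤ W.card := by
    exact_mod_cast card_le_card ((ball_sub E hv r).trans hUW)
  linarith

end Vale.Agent.P344.H890
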