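import Vale.Agent.P344.H890.Adds

/-!
# Additions in linear circuits: proportional outputs
-/

namespace Vale.Agent.P344.H890

open Finset

variable {ι : Type*} [DecidableEq ι] {Z : Type*} [AddCommGroup Z] [Finite Z]

/-- Gate `i` computes on `K` a nonzero multiple of `v`. -/
def Hits (w : ℕ → ι → ℂ) (s : ℕ) (K : Finset ι) (v : ι → ℂ) (i : ℕ) : Prop :=
  i < s ∧ ∃ c : ℂ, c ≠ 0 ∧ res K (w i) = c • res K v

theorem exists_ne_of_two_le {K : Finset ι} (hK : 2 ≤ K.card) (j : ι) : ∃ k ∈ K, k ≠ j := by
  by_contra hcon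
  push Not at hcon
  have : K ⊆ {j} := fun k hk => by simp [hcon k hk]
  have := Finset.card_le_card this
  simp at this
  omega

theorem exists_hits {w : ℕ → ι → ℂ} {s : ℕ} {K : Finset ι} (hK : 2 ≤ K.card) {v : ι → ℂ}
    (hv : v ∈ Av w s) (hne : ∀ j ∈ K, v j ≠ 0) : ∃ i, Hits w s K v i := by
  obtain ⟨j0, hj0⟩ : K.Nonempty := Finset.card_pos.1 (by omega)
  rcases hv with rfl | ⟨j, rfl⟩ | ⟨i, hi, rfl⟩
  · exact absurd rfl (hne j0 hj0)
  · obtain ⟨k, hk, hkj⟩ := exists_ne_of_two_le hK j
    exact absurd (by simp [hkj]) (hne k hk)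
  · exact ⟨i, hi, 1, one_ne_zero, by rw [one_smul]⟩

open Classical in
theorem lines {w : ℕ → ι → ℂ} {s : ℕ} (F : Z → ι → ℂ) (hF : ∀ t, F t ∈ Av w s)
    {K K' : Finset ι} (hKK : K' ⊆ K) (hK : 2 ≤ K.card) (A A' : AddSubgroup Z)
    (hA : ∀ t t', (∃ c : ℂ, res K (F t) = c • res K (F t')) → t - t' ∈ A)
    (hA' : ∀ t t', t - t' ∈ A' → ∃ c : ℂ, res K' (F t) = c • res K' (F t'))
    (hne : ∀ t, ∀ j ∈ K, F t j ≠ 0) :
    A.index ≤ (R w s K \ R w s K').card + A'.index ∧ A.index ≤ (R w s K).card := by
  obtain ⟨j0, hj0⟩ : K.Nonempty := Finset.card_pos.1 (by omega)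
  have hex : ∀ q : Z ⧸ A, ∃ i, Hits w s K (F q.out) i := fun q =>
    exists_hits hK (hF _) (hne _)
  let fst : Z ⧸ A → ℕ := fun q => Nat.find (hex q)
  have hfst : ∀ q, Hits w s K (F q.out) (fst q) := fun q => Nat.find_spec (hex q)
  have hmin : ∀ q i, i < fst q → ¬ Hits w s K (F q.out) i := fun q i hi => Nat.find_min (hex q) hi
  have hR : ∀ q, fst q ∈ R w s K := by
    intro q
    obtain ⟨his, c, hc, he⟩ := hfst q
    rw [mem_R]
    refine ⟨his, ?_⟩
    rintro ⟨u, hu, c', hc'⟩
    rcases hu with rfl | ⟨j, rfl⟩ | ⟨i', hi', rfl⟩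
    · rw [he] at hc'
      have := congrFun hc' j0
      simp [res_apply hj0, hc, hne _ _ hj0] at this
    · obtain ⟨k, hk, hkj⟩ := exists_ne_of_two_le hK j
      rw [he] at hc'
      have := congrFun hc' k
      simp [res_apply hk, hc, hne _ _ hk, hkj] at this
    · apply hmin q i' hi'
      have hc'0 : c' ≠ 0 := by
        rintro rfl
        rw [he] at hc'
        have := congrFun hc' j0
        simp [res_apply hj0, hc, hne _ _ hj0] at this
      refine ⟨hi'.trans his, c'⁻¹ * c, mul_ne_zero (inv_ne_zero hc'0) hc, ?_⟩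
      rw [mul_smul, ← he, hc', smul_smul, inv_mul_cancel₀ hc'0, one_smul]
  have hinj : Function.Injective fst := by
    intro q q' hqq
    obtain ⟨_, c, hc, he⟩ := hfst q
    obtain ⟨_, c', hc', he'⟩ := hfst q'
    rw [← hqq, he] at he'
    have : q.out - q'.out ∈ A := by
      apply hA
      refine ⟨c⁻¹ * c', ?_⟩
      rw [mul_smul, ← he', smul_smul, inv_mul_cancel₀ hc, one_smul]
    rw [← Quotient.out_eq' q, ← Quotient.out_eq' q']
    rw [QuotientAddGroup.eq]
    have := A.neg_mem this
    simpa [sub_eq_add_neg, add_comm] using this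
  have : Fintype (Z ⧸ A) := Fintype.ofFinite _
  have : Fintype (Z ⧸ A') := Fintype.ofFinite _
  have hcard : A.index = (univ : Finset (Z ⧸ A)).card := by
    rw [AddSubgroup.index, Nat.card_eq_fintype_card, Finset.card_univ]
  have hcard' : A'.index = (univ : Finset (Z ⧸ A')).card := by
    rw [AddSubgroup.index, Nat.card_eq_fintype_card, Finset.card_univ]
  refine ⟨?_, ?_⟩
  · rw [hcard, hcard', ← Finset.card_filter_add_card_filter_not (s := univ)
      (p := fun q => fst q ∉ R w s K')]
    apply Nat.add_le_add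
    · apply Finset.card_le_card_of_injOn fst
      · intro q hq
        have hq' : fst q ∉ R w s K' := by simpa using hq
        exact Finset.mem_coe.2 (Finset.mem_sdiff.2 ⟨hR q, hq'⟩)
      · exact hinj.injOn
    · apply Finset.card_le_card_of_injOn (fun q : Z ⧸ A => (QuotientAddGroup.mk q.out : Z ⧸ A'))
      · intro q _
        simp
      · intro q hq q' hq' hqq
        have h1 : fst q ∈ R w s K' := by simpa using hq
        have h2 : fst q' ∈ R w s K' := by simpa using hq'
        -- general statement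
        have gen : ∀ p p' : Z ⧸ A, (QuotientAddGroup.mk p.out : Z ⧸ A') =
            QuotientAddGroup.mk p'.out → fst p' ∈ R w s K' → ¬ fst p < fst p' := by
          intro p p' hpp hp' hlt
          obtain ⟨_, c, hc, he⟩ := hfst p
          obtain ⟨_, c', hc', he'⟩ := hfst p'
          have hmem : p'.out - p.out ∈ A' := by
            have := QuotientAddGroup.eq.1 hpp
            simpa [sub_eq_add_neg, add_comm] using this
          obtain ⟨c2, hc2⟩ := hA' _ _ hmem
          rw [mem_R] at hp'
          apply hp'.2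
          refine ⟨w (fst p), Av_gate w hlt, c' * c2 * c⁻¹, ?_⟩
          have e1 := congrArg (res K') he
          have e2 := congrArg (res K') he'
          rw [res_res hKK, res_smul, res_res hKK] at e1 e2
          rw [e2, e1, hc2, smul_smul, smul_smul, mul_assoc, inv_mul_cancel₀ hc, mul_one]
        have h3 := gen q q' hqq h2
        have h4 := gen q' q hqq.symm h1
        exact hinj (by omega)
  · rw [hcard]
    apply Finset.card_le_card_of_injOn fst
    · intro q _
      exact Finset.mem_coe.2 (hR q)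
    · exact hinj.injOn

end Vale.Agent.P344.H890
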