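import Vale.Agent.P344.H890.Adds
import Vale.Agent.P344.H890.Graph

/-!
# The gates left when few inputs remain
-/

set_option linter.unusedSectionVars false

namespace Vale.Agent.P344.H890

open Finset

variable {ι κ : Type*} [Fintype ι] [DecidableEq ι] [Fintype κ] [DecidableEq κ]

/-- All square submatrices of `A` are invertible: rows `T` are independent on columns `J` when
`|T| ≤ |J|`. -/
def Reg (A : κ → ι → ℂ) : Prop :=
  ∀ (T : Finset κ) (J : Finset ι) (c : κ → ℂ), T.card ≤ J.card →
    (∀ j ∈ J, ∑ t ∈ T, c t * A t j = 0) → ∀ t ∈ T, c t = 0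

theorem Reg.ne_zero {A : κ → ι → ℂ} (h : Reg A) (t : κ) (j : ι) : A t j ≠ 0 := by
  intro h0
  have := h {t} {j} (fun _ => 1) (by simp) (by simp [h0]) t (mem_singleton_self t)
  exact one_ne_zero this

theorem Reg.det_ne {A : κ → ι → ℂ} (h : Reg A) {t t' : κ} (htt : t ≠ t') {a b : ι} (hab : a ≠ b) :
    A t a * A t' b ≠ A t b * A t' a := by
  intro h0
  have h1 := h {t, t'} {a, b} (fun x => if x = t then A t' a else - A t a)
    (by rw [card_pair htt, card_pair hab]) (by
      intro j hj
      rw [sum_pair htt, if_pos rfl, if_neg htt.symm]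
      rw [mem_insert, mem_singleton] at hj
      rcases hj with rfl | rfl
      · ring
      · linear_combination (-1 : ℂ) * h0) t' (by simp)
  rw [if_neg htt.symm, neg_eq_zero] at h1
  exact h.ne_zero t a h1

/-- Elimination of inputs until `k` are left. -/
theorem eliminate {w : ℕ → ι → ℂ} {s : ℕ} (hw : IsSeq w s) {A : κ → ι → ℂ} (hA : Reg A)
    (hκ : 2 ≤ Fintype.card κ) (hF : ∀ t, A t ∈ Av w s) {k : ℕ} (hk : 1 ≤ k) :
    ∀ (d : ℕ) (K : Finset ι), K.card = k + d →
      ∃ K' ⊆ K, K'.card = k ∧ 2 * d + (R w s K').card ≤ (R w s K).card := by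
  intro d
  induction d with
  | zero => intro K hK; exact ⟨K, Subset.refl _, by simpa using hK, by simp⟩
  | succ d ih =>
    intro K hK
    obtain ⟨t, t', htt⟩ := Fintype.exists_pair_of_one_lt_card (by omega : 1 < Fintype.card κ)
    obtain ⟨a, ha, h2⟩ := two_kills hw (by omega : 2 ≤ K.card) (Set.range A)
      (by rintro _ ⟨t, rfl⟩; exact hF t) ⟨A t, t, rfl⟩
      (by rintro _ ⟨t, rfl⟩ j _; exact hA.ne_zero t j)
      (fun a _ b _ hab => ⟨A t, ⟨t, rfl⟩, A t', ⟨t', rfl⟩, hA.det_ne htt hab⟩)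
    obtain ⟨K', hK', hc, h3⟩ := ih (K.erase a) (by rw [card_erase_of_mem ha]; omega)
    have h4 : (R w s K).card = (R w s K \ R w s (K.erase a)).card + (R w s (K.erase a)).card :=
      (card_sdiff_add_card_eq_card (R_mono (erase_subset a K))).symm
    exact ⟨K', hK'.trans (erase_subset _ _), hc, by omega⟩

section final

variable {w : ℕ → ι → ℂ} {s : ℕ} {A : κ → ι → ℂ} {K : Finset ι}

/-- The form of a gate that computes, up to a factor, output `t` on `K`. -/
def Out (w : ℕ → ι → ℂ) (A : κ → ι → ℂ) (K : Finset ι) (t : κ) (i : ℕ) : Prop :=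
  ∃ α : ℂ, α ≠ 0 ∧ res K (w i) = α • res K (A t)

theorem res_ne_zero (hA : Reg A) (hK : 2 ≤ K.card) (t : κ) : res K (A t) ≠ 0 := by
  obtain ⟨j, hj⟩ : K.Nonempty := card_pos.1 (by omega)
  intro h
  have := congrFun h j
  rw [res_apply hj] at this
  exact hA.ne_zero t j this

theorem res_ne_single (hA : Reg A) (hK : 2 ≤ K.card) (t : κ) (j : ι) (c : ℂ) :
    res K (A t) ≠ c • (Pi.single j 1 : ι → ℂ) := by
  obtain ⟨k, hk, hkj⟩ : ∃ k ∈ K, k ≠ j := by
    by_contra hcon
    push Not at hcon
    have : K ⊆ {j} := fun k hk => by simp [hcon k hk]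
    have := card_le_card this
    simp at this
    omega
  intro hc
  have := congrFun hc k
  rw [res_apply hk] at this
  simp [hkj] at this
  exact hA.ne_zero t k this

theorem exists_out (hA : Reg A) (hK : 2 ≤ K.card) (hF : ∀ t, A t ∈ Av w s) (t : κ) :
    ∃ i, Out w A K t i := by
  rcases hF t with h | ⟨j, h⟩ | ⟨i, _, h⟩
  · exact absurd (by rw [h, res_zero]) (res_ne_zero hA hK t)
  · exfalso
    by_cases hj : j ∈ K
    · exact res_ne_single hA hK t j 1 (by rw [h, res_single hj, one_smul])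
    · exact res_ne_zero hA hK t (by rw [h, res_single_not hj])
  · exact ⟨i, 1, one_ne_zero, by rw [h, one_smul]⟩

open Classical in
/-- The first gate that computes output `t` on `K`. -/
noncomputable def idx (hA : Reg A) (hK : 2 ≤ K.card) (hF : ∀ t, A t ∈ Av w s) (t : κ) : ℕ :=
  Nat.find (exists_out hA hK hF t)

theorem idx_spec (hA : Reg A) (hK : 2 ≤ K.card) (hF : ∀ t, A t ∈ Av w s) (t : κ) :
    Out w A K t (idx hA hK hF t) := by
  classical
  exact Nat.find_spec (exists_out hA hK hF t)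

theorem idx_min (hA : Reg A) (hK : 2 ≤ K.card) (hF : ∀ t, A t ∈ Av w s) (t : κ) {i : ℕ}
    (hi : i < idx hA hK hF t) : ¬ Out w A K t i := by
  classical
  exact Nat.find_min (exists_out hA hK hF t) hi

theorem idx_lt (hA : Reg A) (hK : 2 ≤ K.card) (hF : ∀ t, A t ∈ Av w s) (t : κ) :
    idx hA hK hF t < s := by
  rcases hF t with h | ⟨j, h⟩ | ⟨i, hi, h⟩
  · exact absurd (by rw [h, res_zero]) (res_ne_zero hA hK t)
  · exfalso
    by_cases hj : j ∈ K
    · exact res_ne_single hA hK t j 1 (by rw [h, res_single hj, one_smul])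
    · exact res_ne_zero hA hK t (by rw [h, res_single_not hj])
  · have : Out w A K t i := ⟨1, one_ne_zero, by rw [h, one_smul]⟩
    by_contra hcon
    exact idx_min hA hK hF t (by omega) this

theorem idx_not_red (hA : Reg A) (hK : 2 ≤ K.card) (hF : ∀ t, A t ∈ Av w s) (t : κ) :
    ¬ Red w K (idx hA hK hF t) := by
  rintro ⟨u, hu, c, hc⟩
  obtain ⟨α, hα, hαe⟩ := idx_spec hA hK hF t
  have h1 : res K (A t) = (α⁻¹ * c) • res K u := by
    rw [mul_smul, ← hc, hαe, smul_smul, inv_mul_cancel₀ hα, one_smul]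
  rcases hu with rfl | ⟨j, rfl⟩ | ⟨i, hi, rfl⟩
  · exact res_ne_zero hA hK t (by rw [h1, res_zero, smul_zero])
  · by_cases hj : j ∈ K
    · exact res_ne_single hA hK t j _ (by rw [h1, res_single hj])
    · exact res_ne_zero hA hK t (by rw [h1, res_single_not hj, smul_zero])
  · have hne : α⁻¹ * c ≠ 0 := by
      intro h0
      exact res_ne_zero hA hK t (by rw [h1, h0, zero_smul])
    refine idx_min hA hK hF t hi ⟨(α⁻¹ * c)⁻¹, inv_ne_zero hne, ?_⟩
    rw [h1, smul_smul, inv_mul_cancel₀ hne, one_smul]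

theorem idx_inj (hA : Reg A) (hK : 2 ≤ K.card) (hF : ∀ t, A t ∈ Av w s) :
    Function.Injective (idx hA hK hF) := by
  intro t t' h
  by_contra hne
  obtain ⟨α, hα, h1⟩ := idx_spec hA hK hF t
  obtain ⟨β, hβ, h2⟩ := idx_spec hA hK hF t'
  rw [h] at h1
  have h3 : α • res K (A t) = β • res K (A t') := by rw [← h1, h2]
  have := hA {t, t'} K (fun x => if x = t then α else -β) (by rw [card_pair hne]; exact hK) (by
    intro j hj
    rw [sum_pair hne, if_pos rfl, if_neg (Ne.symm hne)]
    have := congrFun h3 j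
    rw [Pi.smul_apply, Pi.smul_apply, res_apply hj, res_apply hj, smul_eq_mul, smul_eq_mul] at this
    rw [this]; ring) t (by simp)
  rw [if_pos rfl] at this
  exact hα this

/-- The gates that are not redundant on `K` and do not compute outputs. -/
noncomputable def Mid (hA : Reg A) (hK : 2 ≤ K.card) (hF : ∀ t, A t ∈ Av w s) : Finset ℕ :=
  R w s K \ univ.image (idx hA hK hF)

theorem card_Mid (hA : Reg A) (hK : 2 ≤ K.card) (hF : ∀ t, A t ∈ Av w s) :
    (Mid hA hK hF).card + Fintype.card κ = (R w s K).card := by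
  have h1 : univ.image (idx hA hK hF) ⊆ R w s K := by
    intro i hi
    rw [mem_image] at hi
    obtain ⟨t, _, rfl⟩ := hi
    exact mem_R.2 ⟨idx_lt hA hK hF t, idx_not_red hA hK hF t⟩
  have h2 : (univ.image (idx hA hK hF)).card = Fintype.card κ := by
    rw [card_image_of_injective _ (idx_inj hA hK hF), card_univ]
  rw [Mid, ← h2]
  exact card_sdiff_add_card_eq_card h1

/-- A form is, on `K`, a combination of at most `n` inputs, `n` outputs computed before gate `i`
and `n` other gates. -/
def Rep (hA : Reg A) (hK : 2 ≤ K.card) (hF : ∀ t, A t ∈ Av w s) (i n : ℕ) (v : ι → ℂ) : Prop :=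
  ∃ (b : ℕ → ℂ) (a : κ → ℂ) (e : ι → ℂ) (E : Finset ℕ) (O : Finset κ) (I : Finset ι),
    E ⊆ Mid hA hK hF ∧ E.card ≤ n ∧ O.card ≤ n ∧ I.card ≤ n ∧ (∀ x ∉ E, b x = 0) ∧
    (∀ t ∉ O, a t = 0) ∧ (∀ j ∉ I, e j = 0) ∧ (∀ t ∈ O, idx hA hK hF t < i) ∧
    res K v = ∑ x ∈ Mid hA hK hF, b x • res K (w x) + ∑ t, a t • res K (A t) + e

theorem Rep.comb (hA : Reg A) (hK : 2 ≤ K.card) (hF : ∀ t, A t ∈ Av w s) {i n m : ℕ}
    {u v : ι → ℂ} (hu : Rep hA hK hF i n u) (hv : Rep hA hK hF i m v) (c d : ℂ) :
    Rep hA hK hF i (n + m) (c • u + d • v) := by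
  obtain ⟨b, a, e, E, O, I, h1, h2, h3, h4, h5, h6, h7, h8, h9⟩ := hu
  obtain ⟨b', a', e', E', O', I', g1, g2, g3, g4, g5, g6, g7, g8, g9⟩ := hv
  refine ⟨c • b + d • b', c • a + d • a', c • e + d • e', E ∪ E', O ∪ O', I ∪ I',
    union_subset h1 g1, ?_, ?_, ?_, ?_, ?_, ?_, ?_, ?_⟩
  · exact (card_union_le _ _).trans (by omega)
  · exact (card_union_le _ _).trans (by omega)
  · exact (card_union_le _ _).trans (by omega)
  · intro x hx
    rw [mem_union, not_or] at hx
    simp [h5 x hx.1, g5 x hx.2]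
  · intro x hx
    rw [mem_union, not_or] at hx
    simp [h6 x hx.1, g6 x hx.2]
  · intro x hx
    rw [mem_union, not_or] at hx
    simp [h7 x hx.1, g7 x hx.2]
  · intro t ht
    rw [mem_union] at ht
    rcases ht with ht | ht
    · exact h8 t ht
    · exact g8 t ht
  · rw [res_add, res_smul, res_smul, h9, g9]
    simp only [Pi.add_apply, Pi.smul_apply, smul_eq_mul, add_smul, mul_smul,
      sum_add_distrib, smul_add, smul_sum]
    abel

theorem rep_one (hA : Reg A) (hK : 2 ≤ K.card) (hF : ∀ t, A t ∈ Av w s) :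
    ∀ i ≤ s, ∀ v ∈ Av w i, Rep hA hK hF i 1 v := by
  classical
  intro i
  induction i using Nat.strong_induction_on with
  | _ i ih =>
    intro his v hv
    have hzero : Rep hA hK hF i 1 (0 : ι → ℂ) :=
      ⟨0, 0, 0, ∅, ∅, ∅, by simp, by simp, by simp, by simp, by simp, by simp, by simp, by simp,
        by simp⟩
    rcases hv with rfl | ⟨j, rfl⟩ | ⟨i', hi', rfl⟩
    · exact hzero
    · by_cases hj : j ∈ K
      · refine ⟨0, 0, Pi.single j 1, ∅, ∅, {j}, by simp, by simp, by simp, by simp, by simp,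
          by simp, ?_, by simp, ?_⟩
        · intro k hk
          rw [mem_singleton] at hk
          simp [hk]
        · rw [res_single hj]
          simp
      · refine ⟨0, 0, 0, ∅, ∅, ∅, by simp, by simp, by simp, by simp, by simp, by simp, by simp,
          by simp, ?_⟩
        rw [res_single_not hj]
        simp
    · by_cases hred : Red w K i'
      · obtain ⟨u, hu, c, hc⟩ := hred
        obtain ⟨b, a, e, E, O, I, h1, h2, h3, h4, h5, h6, h7, h8, h9⟩ :=
          ih i' hi' (by omega) u hu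
        refine ⟨c • b, c • a, c • e, E, O, I, h1, h2, h3, h4, ?_, ?_, ?_, ?_, ?_⟩
        · intro x hx; simp [h5 x hx]
        · intro x hx; simp [h6 x hx]
        · intro x hx; simp [h7 x hx]
        · intro t ht; exact (h8 t ht).trans hi'
        · rw [hc, h9]
          simp only [Pi.smul_apply, smul_eq_mul, mul_smul, smul_add, smul_sum]
      · have hR : i' ∈ R w s K := mem_R.2 ⟨by omega, hred⟩
        by_cases hout : ∃ t, idx hA hK hF t = i'
        · obtain ⟨t, rfl⟩ := hout
          obtain ⟨α, _, hα⟩ := idx_spec hA hK hF t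
          refine ⟨0, Pi.single t α, 0, ∅, {t}, ∅, by simp, by simp, by simp, by simp, by simp,
            ?_, by simp, ?_, ?_⟩
          · intro x hx
            rw [mem_singleton] at hx
            simp [hx]
          · intro x hx
            rw [mem_singleton] at hx
            rw [hx]
            exact hi'
          · rw [hα, sum_eq_single t]
            · simp
            · intro x _ hx
              simp [hx]
            · intro h
              exact absurd (mem_univ t) h
        · have hmid : i' ∈ Mid hA hK hF := by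
            rw [Mid, mem_sdiff, mem_image]
            exact ⟨hR, fun ⟨t, _, ht⟩ => hout ⟨t, ht⟩⟩
          refine ⟨Pi.single i' 1, 0, 0, {i'}, ∅, ∅, by simpa using hmid, by simp, by simp,
            by simp, ?_, by simp, by simp, by simp, ?_⟩
          · intro x hx
            rw [mem_singleton] at hx
            simp [hx]
          · rw [sum_eq_single i']
            · simp
            · intro x _ hx
              simp [hx]
            · intro h
              exact absurd hmid h

theorem rep_out (hw : IsSeq w s) (hA : Reg A) (hK : 2 ≤ K.card) (hF : ∀ t, A t ∈ Av w s)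
    (t : κ) : Rep hA hK hF (idx hA hK hF t) 2 (A t) := by
  obtain ⟨u, hu, v, hv, c, d, hcd⟩ := hw _ (idx_lt hA hK hF t)
  obtain ⟨α, hα, hαe⟩ := idx_spec hA hK hF t
  have h1 := Rep.comb hA hK hF (rep_one hA hK hF _ (idx_lt hA hK hF t).le u hu)
    (rep_one hA hK hF _ (idx_lt hA hK hF t).le v hv) (α⁻¹ * c) (α⁻¹ * d)
  obtain ⟨b, a, e, E, O, I, h1, h2, h3, h4, h5, h6, h7, h8, h9⟩ := h1
  refine ⟨b, a, e, E, O, I, h1, h2, h3, h4, h5, h6, h7, h8, ?_⟩
  rw [← h9]
  have : res K (A t) = α⁻¹ • res K (w (idx hA hK hF t)) := by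
    rw [hαe, smul_smul, inv_mul_cancel₀ hα, one_smul]
  rw [this, hcd, ← res_smul, smul_add, smul_smul, smul_smul]

end final

end Vale.Agent.P344.H890
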