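import Vale.Agent.P344.H890.Four
import Vale.Agent.P344.H169.Final

/-!
# `L(p) ≥ 6p - o(p)` for primes
-/

namespace Vale.Agent.P344.H890

open Finset Filter Topology

theorem L_prime_asymp (ε : ℝ) (hε : 0 < ε) :
    ∀ᶠ p : ℕ in atTop, p.Prime → (6 - ε) * p ≤ L p := by
  filter_upwards [adds_prime_asymp (ε / 2) (by positivity),
    H169.irr_asymp (ε := ε / 2) (by positivity)] with p h1 h2 hp
  obtain ⟨C, hC, hs⟩ := (isLeast_comp hp.one_lt.le).1
  have h3 := h1 hp C hC
  have h4 := h2 C hC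
  have h5 : ((C.adds.card + C.irr.card : ℕ) : ℝ) ≤ L p := by
    rw [← hs]
    exact_mod_cast H169.adds_add_irr_le C
  push_cast at h5
  linarith

/-- Explicit form: for a prime `p ≤ (1 + c) ^ r`. -/
theorem L_prime_explicit {p : ℕ} (hp : p.Prime) (r : ℕ) (c : ℝ) (hc : 0 < c)
    (hr : (p : ℝ) ≤ (1 + c) ^ r) :
    5 * (p : ℝ) + p / (1 + c) - (40 * r + 25) - (p - 1).divisors.card ≤ L p := by
  obtain ⟨C, hC, hs⟩ := (isLeast_comp hp.one_lt.le).1
  have h3 := adds_prime hp C hC r c hc hr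
  have h4 := H169.irr_ge_prime hp C hC
  have h4' : (2 * p : ℝ) ≤ C.irr.card + (p - 1).divisors.card + 3 := by
    have : 2 * p ≤ C.irr.card + (p - 1).divisors.card + 3 := by omega
    exact_mod_cast this
  have h5 : ((C.adds.card + C.irr.card : ℕ) : ℝ) ≤ L p := by
    rw [← hs]
    exact_mod_cast H169.adds_add_irr_le C
  push_cast at h5
  linarith

end Vale.Agent.P344.H890
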