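import Vale.Agent.P344.H890.Local

/-!
# The outputs on few inputs form a locally sparse system
-/

set_option linter.unusedSectionVars false

namespace Vale.Agent.P344.H890

open Finset

variable {ι κ : Type*} [Fintype ι] [DecidableEq ι] [Fintype κ] [DecidableEq κ]

/-- Fewer equations than unknowns. -/
theorem exists_kernel {S : Finset κ} {W : Finset ℕ} (b : κ → ℕ → ℂ) (h : W.card < S.card) :
    ∃ c : κ → ℂ, (∃ t ∈ S, c t ≠ 0) ∧ ∀ x ∈ W, ∑ t ∈ S, c t * b t x = 0 := by
  classical
  let f : (S → ℂ) →ₗ[ℂ] (W → ℂ) :=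
    { toFun := fun c x => ∑ t : S, c t * b t x
      map_add' := by
        intro c d
        funext x
        simp only [Pi.add_apply, add_mul, sum_add_distrib]
      map_smul' := by
        intro r c
        funext x
        simp only [Pi.smul_apply, smul_eq_mul, RingHom.id_apply, mul_sum, mul_assoc] }
  have hf : LinearMap.ker f ≠ ⊥ := by
    apply LinearMap.ker_ne_bot_of_finrank_lt
    simpa using h
  obtain ⟨c, hc, hc0⟩ := Submodule.exists_mem_ne_zero_of_ne_bot hf
  obtain ⟨t, ht⟩ := Function.ne_iff.1 hc0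
  refine ⟨fun t => if h : t ∈ S then c ⟨t, h⟩ else 0, ⟨t.1, t.2, ?_⟩, ?_⟩
  · simpa using ht
  · intro x hx
    have h1 := congrFun (LinearMap.mem_ker.1 hc) ⟨x, hx⟩
    have h2 : ∑ t : S, c t * b t x = 0 := h1
    rw [← h2, ← sum_coe_sort S]
    refine sum_congr rfl fun t _ => ?_
    simp

theorem sparsity {w : ℕ → ι → ℂ} {s : ℕ} {A : κ → ι → ℂ} {K : Finset ι} (hw : IsSeq w s)
    (hA : Reg A) (hK : 2 ≤ K.card) (hF : ∀ t, A t ∈ Av w s) :
    ∃ E : κ → Finset ℕ, (∀ t, E t ⊆ Mid hA hK hF) ∧ (∀ t, (E t).card ≤ 2) ∧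
      ∀ S : Finset κ, 5 * S.card ≤ K.card → S.card ≤ (S.biUnion E).card := by
  classical
  choose b a e E O I h1 h2 h3 h4 h5 h6 h7 h8 h9 using fun t => rep_out hw hA hK hF t
  refine ⟨E, h1, h2, ?_⟩
  intro S hS
  by_contra hcon
  push Not at hcon
  obtain ⟨c, ⟨t₀, ht₀, hct₀⟩, hc⟩ := exists_kernel b hcon
  -- the coefficients of the other gates vanish
  have hmid : ∀ x, ∑ t ∈ S, c t * b t x = 0 := by
    intro x
    by_cases hx : x ∈ S.biUnion E
    · exact hc x hx
    · apply sum_eq_zero
      intro t ht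
      have : x ∉ E t := fun h => hx (mem_biUnion.2 ⟨t, ht, h⟩)
      rw [h5 t x this, mul_zero]
  set J : Finset ι := K \ S.biUnion I with hJ
  set T' : Finset κ := S ∪ S.biUnion O with hT'
  have hJc : 3 * S.card ≤ J.card := by
    have h10 : (S.biUnion I).card ≤ S.card * 2 := card_biUnion_le_card_mul _ _ _ fun t _ => h4 t
    have h11 : K.card - (S.biUnion I).card ≤ J.card := le_card_sdiff _ _
    omega
  have hTc : T'.card ≤ 3 * S.card := by
    have h10 : (S.biUnion O).card ≤ S.card * 2 := card_biUnion_le_card_mul _ _ _ fun t _ => h3 t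
    have h11 : T'.card ≤ S.card + (S.biUnion O).card := card_union_le _ _
    omega
  have hrel : ∀ j ∈ J, ∑ t ∈ S, c t * A t j = ∑ t ∈ S, c t * ∑ t', a t t' * A t' j := by
    intro j hj
    rw [hJ, mem_sdiff] at hj
    have h10 : ∀ t ∈ S, c t * A t j =
        c t * ∑ x ∈ Mid hA hK hF, b t x * w x j + c t * ∑ t', a t t' * A t' j := by
      intro t ht
      have h11 := congrFun (h9 t) j
      have h12 : e t j = 0 := h7 t j fun h => hj.2 (mem_biUnion.2 ⟨t, ht, h⟩)
      simp only [Pi.add_apply, Finset.sum_apply, Pi.smul_apply, smul_eq_mul, res_apply hj.1,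
        h12, add_zero] at h11
      rw [h11]
      ring
    rw [sum_congr rfl h10, sum_add_distrib]
    have h13 : ∑ t ∈ S, c t * ∑ x ∈ Mid hA hK hF, b t x * w x j = 0 := by
      simp only [mul_sum]
      rw [sum_comm]
      apply sum_eq_zero
      intro x _
      have : ∑ t ∈ S, c t * (b t x * w x j) = (∑ t ∈ S, c t * b t x) * w x j := by
        rw [sum_mul]
        refine sum_congr rfl fun t _ => ?_
        ring
      rw [this, hmid x, zero_mul]
    rw [h13, zero_add]
  have hγ := hA T' J (fun t' => (if t' ∈ S then c t' else 0) - ∑ t ∈ S, c t * a t t')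
    (hTc.trans hJc) (by
      intro j hj
      have h10 : ∑ t' ∈ T', ((if t' ∈ S then c t' else 0) - ∑ t ∈ S, c t * a t t') * A t' j =
          ∑ t' ∈ T', (if t' ∈ S then c t' else 0) * A t' j -
            ∑ t' ∈ T', (∑ t ∈ S, c t * a t t') * A t' j := by
        rw [← sum_sub_distrib]
        refine sum_congr rfl fun t' _ => ?_
        ring
      rw [h10]
      have h11 : ∑ t' ∈ T', (if t' ∈ S then c t' else 0) * A t' j = ∑ t ∈ S, c t * A t j := by
        rw [← sum_subset (subset_union_left : S ⊆ T')]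
        · refine sum_congr rfl fun t ht => ?_
          rw [if_pos ht]
        · intro t _ ht
          rw [if_neg ht, zero_mul]
      have h12 : ∑ t' ∈ T', (∑ t ∈ S, c t * a t t') * A t' j =
          ∑ t ∈ S, c t * ∑ t', a t t' * A t' j := by
        simp only [sum_mul]
        rw [sum_comm]
        refine sum_congr rfl fun t ht => ?_
        rw [mul_sum, ← sum_subset (subset_univ T')]
        · refine sum_congr rfl fun t' _ => ?_
          ring
        · intro t' _ ht'
          have : t' ∉ O t := fun h =>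
            ht' (mem_union_right _ (mem_biUnion.2 ⟨t, ht, h⟩))
          rw [h6 t t' this]
          ring
      rw [h11, h12, hrel j hj, sub_self])
  obtain ⟨t', ht', hmax⟩ := (S.filter fun t => c t ≠ 0).exists_max_image (idx hA hK hF)
    ⟨t₀, mem_filter.2 ⟨ht₀, hct₀⟩⟩
  rw [mem_filter] at ht'
  have h10 := hγ t' (mem_union_left _ ht'.1)
  have h11 : ∑ t ∈ S, c t * a t t' = 0 := by
    apply sum_eq_zero
    intro t ht
    by_cases hct : c t = 0
    · rw [hct, zero_mul]
    · have hle := hmax t (mem_filter.2 ⟨ht, hct⟩)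
      have : t' ∉ O t := fun h => absurd (h8 t t' h) (by omega)
      rw [h6 t t' this, mul_zero]
  simp only [if_pos ht'.1, h11, sub_zero] at h10
  exact ht'.2 h10

/-- A sequence of gates that computes the rows of a matrix with all minors nonzero. -/
theorem reg_bound {w : ℕ → ι → ℂ} {s : ℕ} {A : κ → ι → ℂ} (hw : IsSeq w s)
    (hA : Reg A) (hκ : 2 ≤ Fintype.card κ) (hF : ∀ t, A t ∈ Av w s)
    {r : ℕ} {c : ℝ} (hc : 0 < c) (hr : (Fintype.card κ : ℝ) ≤ (1 + c) ^ r)
    (hι : 20 * r + 10 ≤ Fintype.card ι) :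
    2 * ((Fintype.card ι : ℝ) - (20 * r + 10)) + Fintype.card κ + Fintype.card κ / (1 + c) ≤
      (R w s univ).card := by
  classical
  obtain ⟨K, -, hKc, hK2⟩ := eliminate hw hA hκ hF (by omega : 1 ≤ 20 * r + 10)
    (Fintype.card ι - (20 * r + 10)) univ (by rw [card_univ]; omega)
  have hK : 2 ≤ K.card := by omega
  have hM := card_Mid hA hK hF
  have hmain : (Fintype.card κ : ℝ) ≤ (1 + c) * (Mid hA hK hF).card := by
    by_cases hbig : Fintype.card κ ≤ (Mid hA hK hF).card
    · have h1 : (Fintype.card κ : ℝ) ≤ (Mid hA hK hF).card := by exact_mod_cast hbig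
      nlinarith [(Nat.cast_nonneg (Mid hA hK hF).card : (0 : ℝ) ≤ _)]
    · push Not at hbig
      obtain ⟨E, hE, hE2, hE3⟩ := sparsity hw hA hK hF
      refine sparse_graph (r := r) (σ := 4 * r + 2) E (Mid hA hK hF) hE hE2 le_rfl ?_ hc ?_
      · intro S hS
        exact hE3 S (by omega)
      · have h1 : ((Mid hA hK hF).card : ℝ) < Fintype.card κ := by exact_mod_cast hbig
        linarith
  have h1 : (Fintype.card κ : ℝ) / (1 + c) ≤ (Mid hA hK hF).card := by
    rw [div_le_iff₀ (by linarith)]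
    linarith
  have h2 : ((Mid hA hK hF).card : ℝ) + Fintype.card κ = (R w s K).card := by exact_mod_cast hM
  have h3 : 2 * ((Fintype.card ι : ℝ) - (20 * r + 10)) + (R w s K).card ≤ (R w s univ).card := by
    have h4 : (((2 * (Fintype.card ι - (20 * r + 10)) + (R w s K).card : ℕ)) : ℝ) ≤
        ((R w s univ).card : ℝ) := by exact_mod_cast hK2
    push_cast [Nat.cast_sub hι] at h4
    linarith
  linarith

end Vale.Agent.P344.H890
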